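import Vale.Agent.P146.H645x.HitQ

/-!
# P146, lower half: zero-field growth at every scale; the abstract box bridge

`growth`: a point `v ∈ [x / 2, x]` with `QU v ≥ a` gives `P1 ((1 + κ) x) - P1 x ≥ (a / 16) κ n x⁵`
(convexity of `P1` in the exponent).

`box_abs`: from the lower side (`Star`) at the exponents in `[2 u, 16 u]`, the upper side at the
exponents in `[u / 2, 24 u]` and convexity of `x P x w` in `x`: the two-sided box at the scale `u`.
-/

open MeasureTheory ProbabilityTheory Set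

namespace Vale.Agent.P146.H645x

open Vale.Agent.P146.U Vale.Agent.P146.H560

variable {n : ℕ} {β a b c d κ v x : ℝ}

/-- secants of `P1` are monotone -/
theorem P1_secant (ha : 0 < a) (hab : a < b) (hac : a ≤ c) (hcd : c < d) (hbd : b ≤ d) :
    (P1 n β b - P1 n β a) / (b - a) ≤ (P1 n β d - P1 n β c) / (d - c) := by
  -- tangents at the two ends
  have hb : 0 < b := ha.trans hab
  have hc : 0 < c := ha.trans_le hac
  have hconv : ConvexOn ℝ (Ioi 0) (P1 n β) := by
    refine convexOn_of_slope_mono_adjacent (convex_Ioi 0) ?_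
    intro s t r hs hr hst htr
    have hs' : 0 < s := hs
    have ht : 0 < t := hs'.trans hst
    have h1 := P1_le_tan (n := n) (β := β) hs' hst.le
    have h2 := P1_ge_tan (n := n) (β := β) ht htr.le
    have h3 : (P1 n β t - P1 n β s) / (t - s) ≤ AP.Wn n β t / 2 := by
      rw [div_le_iff₀ (by linarith)]
      linarith
    have h4 : AP.Wn n β t / 2 ≤ (P1 n β r - P1 n β t) / (r - t) := by
      rw [le_div_iff₀ (by linarith)]
      linarith
    exact h3.trans h4
  have hd : 0 < d := hb.trans_le hbd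
  -- `slope a b ≤ slope a d ≤ slope c d`
  have k1 : (P1 n β b - P1 n β a) / (b - a) ≤ (P1 n β d - P1 n β a) / (d - a) :=
    hconv.secant_mono (a := a) (x := b) (y := d) ha hb hd (by linarith) (by linarith) hbd
  have k2 : (P1 n β a - P1 n β d) / (a - d) ≤ (P1 n β c - P1 n β d) / (c - d) :=
    hconv.secant_mono (a := d) (x := a) (y := c) hd ha hc (by linarith) (by linarith) hac
  have e : ∀ s, (P1 n β s - P1 n β d) / (s - d) = (P1 n β d - P1 n β s) / (d - s) := fun s => by
    rw [← neg_sub (P1 n β d), ← neg_sub d, neg_div_neg_eq]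
  rw [e, e] at k2
  exact k1.trans k2

/-- **Growth at zero field at every scale.** -/
theorem growth (hn : 0 < n) (hκ : 0 < κ) (ha : 0 ≤ a) (hx : 0 < x)
    (h : ∃ v, x / 2 ≤ v ∧ v ≤ x ∧ a ≤ QU n β κ v) :
    a / 16 * (κ * (n * x ^ 5)) ≤ P1 n β ((1 + κ) * x) - P1 n β x := by
  obtain ⟨v, hv1, hv2, hv3⟩ := h
  have hN : (0 : ℝ) < n := by exact_mod_cast hn
  have hv0 : 0 < v := by linarith
  have h1 := (le_QU_iff hn hκ hv0).1 hv3
  have hκv : 0 < κ * v := by positivity
  have hκx : 0 < κ * x := by positivity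
  have h2 := P1_secant (n := n) (β := β) (a := v) (b := (1 + κ) * v) (c := x)
    (d := (1 + κ) * x) hv0 (by nlinarith) hv2 (by nlinarith)
    (mul_le_mul_of_nonneg_left hv2 (by linarith))
  have e1 : (1 + κ) * v - v = κ * v := by ring
  have e2 : (1 + κ) * x - x = κ * x := by ring
  rw [e1, e2, div_le_div_iff₀ hκv hκx] at h2
  have h3 : a * (κ * (n * v ^ 5)) * (κ * x) ≤ (P1 n β ((1 + κ) * x) - P1 n β x) * (κ * v) :=
    le_trans (mul_le_mul_of_nonneg_right h1 hκx.le) h2
  have h4 : (κ * v) * (a * (κ * (n * (v ^ 4 * x)))) ≤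
      (κ * v) * (P1 n β ((1 + κ) * x) - P1 n β x) := by
    refine le_trans (le_of_eq ?_) (h3.trans (le_of_eq ?_)) <;> ring
  have h5 := le_of_mul_le_mul_left h4 hκv
  refine le_trans ?_ h5
  have h6 : x ^ 4 / 16 ≤ v ^ 4 := by
    have := pow_le_pow_left₀ (by positivity : 0 ≤ x / 2) hv1 4
    refine le_trans (le_of_eq ?_) this
    ring
  calc a / 16 * (κ * (n * x ^ 5)) = a * (κ * (n * (x ^ 4 / 16 * x))) := by ring
    _ ≤ a * (κ * (n * (v ^ 4 * x))) := by gcongr

/-- **The box from the lower side at larger exponents and the upper side (abstract form).** -/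
theorem box_abs {P : ℝ → ℝ → ℝ} {γ N B C u : ℝ} (hN : 0 ≤ N) (hB : 0 ≤ B) (hC : 0 ≤ C)
    (hu : 0 < u)
    (hcx : ∀ x w, u / 2 ≤ x → x ≤ 8 * u → 0 ≤ w → w ≤ 8 * u ^ 3 →
      4 * P (2 * x) w - 3 * P (3 * x) w ≤ P x w)
    (hLo : ∀ x w, 2 * u ≤ x → x ≤ 16 * u → 0 ≤ w → w ≤ x ^ 3 →
      P x 0 + γ * w - B * (N * x ^ 5) ≤ P x w)
    (hHi : ∀ x w, u / 2 ≤ x → x ≤ 24 * u → 0 ≤ w → w ≤ 64 * x ^ 3 →
      P x w ≤ P x 0 + γ * w + C * (N * x ^ 5))
    (hmono : ∀ x y, u / 2 ≤ x → x ≤ y → y ≤ 24 * u → P x 0 ≤ P y 0)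
    (hinc : ∀ x y, u / 2 ≤ x → x ≤ y → y ≤ 24 * u → P y 0 ≤ P x 0 + C * (N * y ^ 5)) :
    ∀ v V, u / 2 ≤ v → v ≤ 4 * u → 0 ≤ V → V ≤ 8 * u ^ 3 →
      |P v V - P v 0 - γ * V| ≤ 200000000 * (B + C) * (N * u ^ 5) := by
  intro v V hv1 hv2 hV0 hV
  have hv0 : 0 < v := by linarith
  have hv5 : v ^ 5 ≤ 1024 * u ^ 5 := by
    have := pow_le_pow_left₀ hv0.le hv2 5
    refine this.trans (le_of_eq ?_)
    ring
  have hNv : N * v ^ 5 ≤ 1024 * (N * u ^ 5) := by
    have := mul_le_mul_of_nonneg_left hv5 hN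
    linarith
  have hNu : 0 ≤ N * u ^ 5 := by positivity
  have hNv0 : 0 ≤ N * v ^ 5 := by positivity
  have hv3 : u ^ 3 / 8 ≤ v ^ 3 := by
    have := pow_le_pow_left₀ (by positivity : 0 ≤ u / 2) hv1 3
    refine le_trans (le_of_eq ?_) this
    ring
  rw [abs_le]
  constructor
  · -- the lower side
    have c1 := hcx v V hv1 (by linarith) hV0 hV
    have c2 := hcx (2 * v) V (by linarith) (by linarith) hV0 hV
    have e1 : 2 * (2 * v) = 4 * v := by ring
    have e2 : 3 * (2 * v) = 6 * v := by ring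
    rw [e1, e2] at c2
    have l1 := hLo (4 * v) V (by linarith) (by linarith) hV0 (by
      have : (4 * v) ^ 3 = 64 * v ^ 3 := by ring
      rw [this]
      linarith)
    have u1 := hHi (6 * v) V (by linarith) (by linarith) hV0 (by
      have : (6 * v) ^ 3 = 216 * v ^ 3 := by ring
      rw [this]
      have : 0 < u ^ 3 := by positivity
      linarith)
    have u2 := hHi (3 * v) V (by linarith) (by linarith) hV0 (by
      have : (3 * v) ^ 3 = 27 * v ^ 3 := by ring
      rw [this]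
      have : 0 < u ^ 3 := by positivity
      linarith)
    have m1 := hmono v (4 * v) hv1 (by linarith) (by linarith)
    have i1 := hinc v (6 * v) hv1 (by linarith) (by linarith)
    have i2 := hinc v (3 * v) hv1 (by linarith) (by linarith)
    have p4 : (4 * v) ^ 5 = 1024 * v ^ 5 := by ring
    have p6 : (6 * v) ^ 5 = 7776 * v ^ 5 := by ring
    have p3 : (3 * v) ^ 5 = 243 * v ^ 5 := by ring
    rw [p4] at l1
    rw [p6] at u1 i1
    rw [p3] at u2 i2
    have hBN : B * (N * v ^ 5) ≤ 1024 * (B * (N * u ^ 5)) := by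
      have := mul_le_mul_of_nonneg_left hNv hB
      linarith
    have hCN : C * (N * v ^ 5) ≤ 1024 * (C * (N * u ^ 5)) := by
      have := mul_le_mul_of_nonneg_left hNv hC
      linarith
    have hBu : 0 ≤ B * (N * u ^ 5) := mul_nonneg hB hNu
    have hCu : 0 ≤ C * (N * u ^ 5) := mul_nonneg hC hNu
    have r1 : B * (N * (1024 * v ^ 5)) = 1024 * (B * (N * v ^ 5)) := by ring
    have r2 : C * (N * (7776 * v ^ 5)) = 7776 * (C * (N * v ^ 5)) := by ring
    have r3 : C * (N * (243 * v ^ 5)) = 243 * (C * (N * v ^ 5)) := by ring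
    rw [r1] at l1
    rw [r2] at u1 i1
    rw [r3] at u2 i2
    have r4 : 200000000 * (B + C) * (N * u ^ 5) =
        200000000 * (B * (N * u ^ 5)) + 200000000 * (C * (N * u ^ 5)) := by ring
    rw [r4]
    linarith
  · -- the upper side
    have u1 := hHi v V hv1 (by linarith) hV0 (by linarith)
    have hCN : C * (N * v ^ 5) ≤ 1024 * (C * (N * u ^ 5)) := by
      have := mul_le_mul_of_nonneg_left hNv hC
      linarith
    have hBu : 0 ≤ B * (N * u ^ 5) := mul_nonneg hB hNu
    have hCu : 0 ≤ C * (N * u ^ 5) := mul_nonneg hC hNu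
    have r4 : 200000000 * (B + C) * (N * u ^ 5) =
        200000000 * (B * (N * u ^ 5)) + 200000000 * (C * (N * u ^ 5)) := by ring
    rw [r4]
    linarith

end Vale.Agent.P146.H645x
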