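import Vale.Agent.P146.H758.Box
import Vale.Agent.P146.H479.Expo
import Vale.Agent.P146.H645x.Grow

/-!
# P146, lower half: the box bridge for the pure laws with a white field

`Pu n β x V` (helper758): exponent `x`, field variance `V`.
`box_Pu`: lower side on `[2 u, 16 u]` + upper side on `[u / 2, 24 u]` ⟹ two-sided box at `u`.
-/

open MeasureTheory ProbabilityTheory Set

namespace Vale.Agent.P146.H645x

open Vale.Agent.P157 Vale.Agent.P157.Lv Vale.Agent.P157.Lv.Sy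
open Vale.Agent.P146.H425 Vale.Agent.P146.H325 Vale.Agent.P146.R1 Vale.Agent.P146.U
open Vale.Agent.P146.H93 Vale.Agent.P146.H479 Vale.Agent.P146.H758
open Vale.Agent.P146.H66 (cm em_cm fe_mono_m)

variable {n : ℕ} {β a c x y u V B C D : ℝ}

lemma cm_conv (hac : a + c = 1) :
    (fun j => a * cm 1 x j + c * cm 1 y j) = cm 1 (a * x + c * y) := by
  funext j
  unfold cm
  split_ifs
  · ring
  · rfl
  · rw [mul_one, mul_one, hac]

/-- the pure law is convex in the exponent -/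
theorem Pu_conv (hx : 0 < x) (hx1 : x ≤ 1) (hy : 0 < y) (hy1 : y ≤ 1) (ha : 0 ≤ a) (hc : 0 ≤ c)
    (hac : a + c = 1) (V : ℝ) :
    Pu n β (a * x + c * y) V ≤ a * Pu n β x V + c * Pu n β y V := by
  have h := fe_conv (n := n) (em_cm le_rfl hx hx1) (em_cm le_rfl hy hy1)
    (fun _ => β / √n) (fun _ => √V) ha hc hac
  rw [cm_conv hac] at h
  exact h

/-- the pure law is nondecreasing in the exponent -/
theorem Pu_mono (hβ : 0 ≤ β) (hx : 0 < x) (hxy : x ≤ y) (hy1 : y ≤ 1) (hV : 0 ≤ V) :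
    Pu n β x V ≤ Pu n β y V := by
  have hx1 : x ≤ 1 := hxy.trans hy1
  have e1 : cm 1 x 1 = x := by
    unfold cm
    rw [if_neg (by omega), if_pos (by omega)]
  have h : Ex2 1 (cm 1 x) x y := ⟨em_cm le_rfl hx hx1, le_rfl, hx, hy1, e1.ge, e1.le.trans hxy⟩
  have hb : tv 1 (fun _ => β / √n) = β ^ 2 / n := by
    simp only [tv, Finset.range_one, Finset.sum_singleton]
    rw [div_pow, Real.sq_sqrt (Nat.cast_nonneg n)]
  have hw : tv 1 (fun _ => √V) = V := by
    simp only [tv, Finset.range_one, Finset.sum_singleton]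
    exact Real.sq_sqrt hV
  have h2 := (sandwich (n := n) (w := fun _ => √V) h hβ hb).2
  rw [hw] at h2
  exact h2

/-- **(cx).** -/
theorem Pu_cx (hβ : 0 ≤ β) (hx : 0 < x) (hx1 : 3 * x ≤ 1) (hV : 0 ≤ V) :
    4 * Pu n β (2 * x) V - 3 * Pu n β (3 * x) V ≤ Pu n β x V := by
  have h1 := Pu_conv (n := n) (β := β) (a := 1 / 2) (c := 1 / 2) (x := x) (y := 3 * x) hx
    (by linarith) (by linarith) hx1 (by norm_num) (by norm_num) (by norm_num) V
  have e : 1 / 2 * x + 1 / 2 * (3 * x) = 2 * x := by ring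
  rw [e] at h1
  have h2 := Pu_mono (n := n) (β := β) (x := 2 * x) (y := 3 * x) (V := V) hβ (by linarith)
    (by linarith) hx1 hV
  linarith

/-- **BOX-BRIDGE.** -/
theorem box_Pu (hβ : 0 < β) (hu : 0 < u) (hu1 : 24 * u ≤ 1) (hB : 0 ≤ B) (hC : 0 ≤ C)
    (hLo : ∀ x V, 2 * u ≤ x → x ≤ 16 * u → 0 ≤ V → V ≤ x ^ 3 →
      P1 n β x + n / (2 * β) * V - B * (n * x ^ 5) ≤ Pu n β x V)
    (hHi : ∀ x V, u / 2 ≤ x → x ≤ 24 * u → 0 ≤ V → V ≤ 64 * x ^ 3 →
      Pu n β x V ≤ P1 n β x + n / (2 * β) * V + C * (n * x ^ 5))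
    (hinc : ∀ x y, u / 2 ≤ x → x ≤ y → y ≤ 24 * u →
      P1 n β y ≤ P1 n β x + C * (n * y ^ 5)) :
    ∀ v V, u / 2 ≤ v → v ≤ 4 * u → 0 ≤ V → V ≤ 8 * u ^ 3 →
      |Pu n β v V - P1 n β v - n / (2 * β) * V| ≤ 200000000 * (B + C) * (n * u ^ 5) := by
  have h0 : ∀ x, 0 < x → x ≤ 1 → Pu n β x 0 = P1 n β x := fun x hx hx1 => Pu_zero hx hx1
  have h := box_abs (P := Pu n β) (γ := n / (2 * β)) (N := n) (B := B) (C := C) (u := u)
    (Nat.cast_nonneg n) hB hC hu
    (fun x w h1 h2 h3 _ => Pu_cx hβ.le (by linarith) (by linarith) h3)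
    (fun x w h1 h2 h3 h4 => by
      rw [h0 x (by linarith) (by linarith)]
      exact hLo x w h1 h2 h3 h4)
    (fun x w h1 h2 h3 h4 => by
      rw [h0 x (by linarith) (by linarith)]
      exact hHi x w h1 h2 h3 h4)
    (fun x y h1 h2 h3 => by
      rw [h0 x (by linarith) (by linarith), h0 y (by linarith) (by linarith)]
      exact P1_mono (by linarith) h2)
    (fun x y h1 h2 h3 => by
      rw [h0 x (by linarith) (by linarith), h0 y (by linarith) (by linarith)]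
      exact hinc x y h1 h2 h3)
  intro v V h1 h2 h3 h4
  have h5 := h v V h1 h2 h3 h4
  rwa [h0 v (by linarith) (by linarith)] at h5

/-- from the two-sided box to helper758's `Ap` -/
theorem ap_of_box (hβ : 0 < β) (hu : 0 < u) (hC : 0 ≤ C)
    (hbox : ∀ v V, u / 2 ≤ v → v ≤ 4 * u → 0 ≤ V → V ≤ 8 * u ^ 3 →
      |Pu n β v V - P1 n β v - n / (2 * β) * V| ≤ D * (n * u ^ 5))
    (hinc : ∀ x y, u / 2 ≤ x → x ≤ y → y ≤ 4 * u →
      P1 n β y ≤ P1 n β x + C * (n * y ^ 5))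
    (hy : u / 2 ≤ x) (hxy : x ≤ y) (hY : y ≤ 4 * u) :
    Ap n β x y (8 * u ^ 3) (P1 n β x) ((D + 1024 * C) * (n * u ^ 5)) := by
  have hx0 : 0 < x := by linarith
  have e : n / β / 2 = n / (2 * β) := by
    field_simp
  have hNu : 0 ≤ (n : ℝ) * u ^ 5 := by positivity
  have hCN : 0 ≤ C * (n * u ^ 5) := mul_nonneg hC hNu
  have hr : (D + 1024 * C) * (n * u ^ 5) = D * (n * u ^ 5) + 1024 * (C * (n * u ^ 5)) := by ring
  constructor
  · intro V hV0 hV
    have h1 := (abs_le.1 (hbox x V hy (hxy.trans hY) hV0 hV)).1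
    rw [e, hr]
    linarith
  · intro V hV0 hV
    have h1 := (abs_le.1 (hbox y V (hy.trans hxy) hY hV0 hV)).2
    have h2 := hinc x y hy hxy hY
    have h3 : C * (n * y ^ 5) ≤ 1024 * (C * (n * u ^ 5)) := by
      have h4 := pow_le_pow_left₀ (hx0.le.trans hxy) hY 5
      calc C * (n * y ^ 5) ≤ C * (n * (4 * u) ^ 5) := by gcongr
        _ = 1024 * (C * (n * u ^ 5)) := by ring
    rw [e, hr]
    linarith

end Vale.Agent.P146.H645x
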