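import Mathlib

/-!
# P146: the choice of the numbers of the bundles (helper645)

`consts`: the width `q`, the number `N` of levels, the size `R` of the variances and the bound
`g` of the fluctuation, against the constants of the row.
-/

namespace Vale.Agent.P146.H645x

/-- the error of the row (`eT` of helper877, with `M` for the constant) -/
noncomputable def eN (M θ D κ g π R t δ n : ℝ) : ℝ :=
  M * (g / π + θ / (n * R) + (D * θ ^ 2 + θ ^ 4 + κ * θ ^ 2) / t +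
    (t * θ ^ 3 + κ * θ) + 1 / n + δ * θ ^ 2)

lemma eN_le {M C g t s n u δ v q ε κ R : ℝ} (hM : 0 ≤ M) (hC : 0 ≤ C)
    (ht : 0 < t) (hu : 0 < u) (hu1 : u ≤ 1) (k1 : κ ≤ 3 * u ^ 3)
    (c1 : M * (g / s) ≤ ε / 8 * u ^ 3) (c2 : M * (C * u / (n * R)) ≤ ε / 8 * u ^ 3)
    (c3 : M * (δ * C ^ 2) ≤ ε / 8 * t) (c4 : M * ((C ^ 4 + 3 * C ^ 2) * u) ≤ ε / 8 * t)
    (c5 : M * (t * C ^ 3) ≤ ε / 8) (c5' : M * (3 * C * u) ≤ ε / 8)
    (c6 : M * (1 / n) ≤ ε / 8 * u ^ 3) (c7 : M * ((v * q) * C ^ 2) ≤ ε / 8) :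
    eN M (C * u) (δ * u) κ g s R t (v * u * q) n ≤ ε * u ^ 3 := by
  have u3 : 0 < u ^ 3 := by positivity
  have t3 : M * ((δ * u * (C * u) ^ 2 + (C * u) ^ 4 + κ * (C * u) ^ 2) / t) ≤
      ε / 8 * u ^ 3 + ε / 8 * u ^ 3 := by
    have h1 : κ * (C * u) ^ 2 ≤ 3 * u ^ 3 * (C * u) ^ 2 :=
      mul_le_mul_of_nonneg_right k1 (by positivity)
    have h2 : 3 * u ^ 3 * (C * u) ^ 2 ≤ 3 * C ^ 2 * u ^ 4 := by
      have : 3 * u ^ 3 * (C * u) ^ 2 = 3 * C ^ 2 * u ^ 4 * u := by ring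
      rw [this]
      exact mul_le_of_le_one_right (by positivity) hu1
    have h3 : δ * u * (C * u) ^ 2 + (C * u) ^ 4 + κ * (C * u) ^ 2 ≤
        (δ * C ^ 2 + (C ^ 4 + 3 * C ^ 2) * u) * u ^ 3 := by nlinarith
    rw [← mul_div_assoc, div_le_iff₀ ht]
    calc M * (δ * u * (C * u) ^ 2 + (C * u) ^ 4 + κ * (C * u) ^ 2) ≤
          M * ((δ * C ^ 2 + (C ^ 4 + 3 * C ^ 2) * u) * u ^ 3) := mul_le_mul_of_nonneg_left h3 hM
      _ = (M * (δ * C ^ 2) + M * ((C ^ 4 + 3 * C ^ 2) * u)) * u ^ 3 := by ring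
      _ ≤ (ε / 8 * t + ε / 8 * t) * u ^ 3 := mul_le_mul_of_nonneg_right (add_le_add c3 c4) u3.le
      _ = _ := by ring
  have t5 : M * (t * (C * u) ^ 3 + κ * (C * u)) ≤ ε / 8 * u ^ 3 + ε / 8 * u ^ 3 := by
    have h1 : κ * (C * u) ≤ 3 * u ^ 3 * (C * u) := mul_le_mul_of_nonneg_right k1 (by positivity)
    calc M * (t * (C * u) ^ 3 + κ * (C * u)) ≤ M * (t * (C * u) ^ 3 + 3 * u ^ 3 * (C * u)) :=
          mul_le_mul_of_nonneg_left (by linarith) hM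
      _ = (M * (t * C ^ 3) + M * (3 * C * u)) * u ^ 3 := by ring
      _ ≤ (ε / 8 + ε / 8) * u ^ 3 := mul_le_mul_of_nonneg_right (add_le_add c5 c5') u3.le
      _ = _ := by ring
  have t7 : M * (v * u * q * (C * u) ^ 2) ≤ ε / 8 * u ^ 3 := by
    have : M * (v * u * q * (C * u) ^ 2) = M * ((v * q) * C ^ 2) * u ^ 3 := by ring
    rw [this]
    exact mul_le_mul_of_nonneg_right c7 u3.le
  have e : eN M (C * u) (δ * u) κ g s R t (v * u * q) n =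
      M * (g / s) + M * (C * u / (n * R)) +
      M * ((δ * u * (C * u) ^ 2 + (C * u) ^ 4 + κ * (C * u) ^ 2) / t) +
      M * (t * (C * u) ^ 3 + κ * (C * u)) + M * (1 / n) + M * (v * u * q * (C * u) ^ 2) := by
    unfold eN
    ring
  rw [e]
  linarith

/-- `a * x ≤ b` for `x ≤ b / (a + 1)` -/
lemma mul_le_of_le_div_add {a b x : ℝ} (ha : 0 ≤ a) (hx : 0 ≤ x) (h : x ≤ b / (a + 1)) :
    a * x ≤ b := by
  rw [le_div_iff₀ (by linarith)] at h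
  nlinarith

/-- the conclusion at one scale, for admissible constants -/
lemma consts_fin {C4 CE M y v ε t δ q ε1 g0 K1 γ n u B R s N : ℝ} (hC4 : 0 ≤ C4)
    (hCE : 0 ≤ CE) (hM : 0 ≤ M) (hy : 0 < y) (hε : 0 < ε)
    (ht0 : 0 < t) (hδ0 : 0 < δ) (hε1 : 0 < ε1) (hNp : 3 ≤ N)
    (hN : 3 + 10 * C4 ^ 2 / δ ^ 2 ≤ N) (hg1 : g0 ≤ ε1) (hs0 : 0 < s)
    (hg2 : g0 ≤ δ ^ 2 / 2 * s ^ 2 / 20) (hg3 : M * g0 ≤ ε / 8 * s)
    (hK1 : K1 = 6400 * CE * N ^ 2 / (y * ε1 ^ 2)) (hγ0 : 0 < γ) (hγ2 : K1 * γ ≤ g0)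
    (hγ3 : M * (10 * N * C4 / ε1) * γ ≤ ε / 8) (hγ4 : M * γ ≤ ε / 8)
    (hu4 : M * (C4 ^ 4 + 3 * C4 ^ 2) * u ≤ ε / 8 * t) (hu5 : M * (3 * C4) * u ≤ ε / 8)
    (ht2 : M * C4 ^ 3 * t ≤ ε / 8) (hδ2 : M * C4 ^ 2 * δ ≤ ε / 8 * t)
    (hq : M * (v * C4 ^ 2) * q ≤ ε / 8)
    (hn : 0 < n) (hu : 0 < u) (hu1 : u ≤ 1) (hB : 0 ≤ B)
    (hBB : (B + 1) ^ 8 ≤ γ * (n * u ^ 6)) (hR : R = ε1 * u ^ 3 / (10 * N * (B + 1)))
    (hsu : v * u * q / (2 * N + 2) = s * u) {E : ℝ} (hE0 : 0 ≤ E)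
    (hE : E ≤ CE * (B + 1) * (n * u ^ 5)) :
    64 * E / (y * u * n ^ 2 * R ^ 2) ≤ ε1 * u ^ 4 ∧
      5 * (C4 * u) ^ 2 / (N - 2) + 20 * (64 * E / (y * u * n ^ 2 * R ^ 2)) /
        (v * u * q / (2 * N + 2)) ^ 2 ≤ (δ * u) ^ 2 ∧
      ∀ κ : ℝ, κ ≤ 3 * u ^ 3 →
        eN M (C4 * u) (δ * u) κ (64 * E / (y * u * n ^ 2 * R ^ 2))
          (v * u * q / (2 * N + 2)) R t (v * u * q) n ≤ ε * u ^ 3 := by
  have hN0 : 0 < N := by linarith
  have B1 : 1 ≤ B + 1 := by linarith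
  have hx : 0 < n * u ^ 6 := by positivity
  have hB1 : (B + 1) ^ 1 ≤ γ * (n * u ^ 6) := (pow_le_pow_right₀ B1 (by norm_num)).trans hBB
  have hB3 : (B + 1) ^ 3 ≤ γ * (n * u ^ 6) := (pow_le_pow_right₀ B1 (by norm_num)).trans hBB
  rw [pow_one] at hB1
  have hγx : 1 ≤ γ * (n * u ^ 6) := B1.trans hB1
  have u2 : 0 < u ^ 2 := by positivity
  have u3 : 0 < u ^ 3 := by positivity
  have u4 : 0 < u ^ 4 := by positivity
  have hB10 : 0 < B + 1 := by linarith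
  have hR0 : 0 < R := by rw [hR]; positivity
  have hK10 : 0 ≤ K1 := by rw [hK1]; positivity
  obtain ⟨g, hg⟩ : ∃ g, g = 64 * E / (y * u * n ^ 2 * R ^ 2) := ⟨_, rfl⟩
  rw [← hg]
  have hgn : 0 ≤ g := by rw [hg]; positivity
  -- the bound of `g`
  have hgg : g ≤ g0 * u ^ 4 := by
    have e1 : g ≤ 64 * (CE * (B + 1) * (n * u ^ 5)) / (y * u * n ^ 2 * R ^ 2) := by
      rw [hg]
      exact div_le_div_of_nonneg_right (by linarith) (by positivity)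
    have e2 : 64 * (CE * (B + 1) * (n * u ^ 5)) / (y * u * n ^ 2 * R ^ 2) =
        K1 * (B + 1) ^ 3 / (n * u ^ 6) * u ^ 4 := by
      rw [hK1, hR]
      field_simp
      ring
    rw [e2] at e1
    refine e1.trans (mul_le_mul_of_nonneg_right ?_ u4.le)
    rw [div_le_iff₀ hx]
    calc K1 * (B + 1) ^ 3 ≤ K1 * (γ * (n * u ^ 6)) := mul_le_mul_of_nonneg_left hB3 hK10
      _ = (K1 * γ) * (n * u ^ 6) := by ring
      _ ≤ g0 * (n * u ^ 6) := mul_le_mul_of_nonneg_right hγ2 hx.le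
  have hgε : g ≤ ε1 * u ^ 4 := hgg.trans (mul_le_mul_of_nonneg_right hg1 u4.le)
  rw [hsu]
  refine ⟨hgε, ?_, ?_⟩
  · have hN2 : (0 : ℝ) < N - 2 := by linarith
    have h1 : 5 * (C4 * u) ^ 2 / (N - 2) ≤ δ ^ 2 / 2 * u ^ 2 := by
      rw [div_le_iff₀ hN2]
      have h2 : 10 * C4 ^ 2 / δ ^ 2 ≤ (N : ℝ) - 2 := by linarith
      rw [div_le_iff₀ (by positivity)] at h2
      have h3 := mul_le_mul_of_nonneg_right h2 u2.le
      calc 5 * (C4 * u) ^ 2 = (10 * C4 ^ 2 * u ^ 2) / 2 := by ring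
        _ ≤ ((N - 2) * δ ^ 2 * u ^ 2) / 2 := by linarith
        _ = _ := by ring
    have h2 : 20 * g / (s * u) ^ 2 ≤ δ ^ 2 / 2 * u ^ 2 := by
      rw [div_le_iff₀ (by positivity)]
      have h3 : 20 * g0 ≤ δ ^ 2 / 2 * s ^ 2 := by linarith
      have h4 : 20 * g0 * u ^ 4 ≤ δ ^ 2 / 2 * s ^ 2 * u ^ 4 := mul_le_mul_of_nonneg_right h3 u4.le
      calc 20 * g ≤ 20 * g0 * u ^ 4 := by linarith
        _ ≤ _ := h4
        _ = _ := by ring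
    have h3 : (δ * u) ^ 2 = δ ^ 2 / 2 * u ^ 2 + δ ^ 2 / 2 * u ^ 2 := by ring
    rw [h3]
    exact add_le_add h1 h2
  · intro κ k1
    refine eN_le hM hC4 ht0 hu hu1 k1 ?_ ?_ ?_ ?_ ?_ ?_ ?_ ?_
    · -- `g / s`
      have h1 : g / (s * u) ≤ g0 * u ^ 3 / s := by
        rw [div_le_div_iff₀ (by positivity) hs0]
        have h4 : g * s ≤ g0 * u ^ 4 * s := mul_le_mul_of_nonneg_right hgg hs0.le
        calc g * s ≤ g0 * u ^ 4 * s := h4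
          _ = _ := by ring
      calc M * (g / (s * u)) ≤ M * (g0 * u ^ 3 / s) := mul_le_mul_of_nonneg_left h1 hM
        _ = (M * g0) / s * u ^ 3 := by ring
        _ ≤ ε / 8 * u ^ 3 := mul_le_mul_of_nonneg_right (by
            rw [div_le_iff₀ hs0]; exact hg3) u3.le
    · -- `θ / (n R)`
      have e1 : C4 * u / (n * R) = 10 * N * C4 / ε1 * ((B + 1) / (n * u ^ 6)) * u ^ 4 := by
        rw [hR]
        field_simp
      have h1 : (B + 1) / (n * u ^ 6) ≤ γ := by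
        rw [div_le_iff₀ hx]
        exact hB1
      rw [e1]
      have h3 : u ^ 4 ≤ u ^ 3 := by
        have : u ^ 4 = u ^ 3 * u := by ring
        rw [this]
        exact mul_le_of_le_one_right u3.le hu1
      calc M * (10 * N * C4 / ε1 * ((B + 1) / (n * u ^ 6)) * u ^ 4) =
            (M * (10 * N * C4 / ε1) * ((B + 1) / (n * u ^ 6))) * u ^ 4 := by ring
        _ ≤ (M * (10 * N * C4 / ε1) * γ) * u ^ 4 :=
            mul_le_mul_of_nonneg_right (mul_le_mul_of_nonneg_left h1 (by positivity)) u4.le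
        _ ≤ ε / 8 * u ^ 4 := mul_le_mul_of_nonneg_right hγ3 u4.le
        _ ≤ ε / 8 * u ^ 3 := mul_le_mul_of_nonneg_left h3 (by positivity)
    · refine le_trans (le_of_eq ?_) hδ2
      ring
    · refine le_trans (le_of_eq ?_) hu4
      ring
    · refine le_trans (le_of_eq ?_) ht2
      ring
    · refine le_trans (le_of_eq ?_) hu5
      ring
    · have h1 : 1 / n ≤ γ * u ^ 3 := by
        rw [div_le_iff₀ hn]
        have h2 : u ^ 6 ≤ u ^ 3 := by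
          have : u ^ 6 = u ^ 3 * u ^ 3 := by ring
          rw [this]
          exact mul_le_of_le_one_right u3.le (pow_le_one₀ hu.le hu1)
        have h3 : γ * (n * u ^ 6) ≤ γ * (n * u ^ 3) :=
          mul_le_mul_of_nonneg_left (mul_le_mul_of_nonneg_left h2 hn.le) hγ0.le
        linarith
      calc M * (1 / n) ≤ M * (γ * u ^ 3) := mul_le_mul_of_nonneg_left h1 hM
        _ = (M * γ) * u ^ 3 := by ring
        _ ≤ _ := mul_le_mul_of_nonneg_right hγ4 u3.le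
    · refine le_trans (le_of_eq ?_) hq
      ring

/-- **The choice of the numbers of the bundles.** -/
theorem consts {C4 CE M B0 y v ε : ℝ} (hC4 : 0 ≤ C4) (hCE : 0 ≤ CE) (hM : 0 ≤ M)
    (hB0 : 0 ≤ B0) (hy : 0 < y) (hv : 0 < v) (hε : 0 < ε) :
    ∃ t δ q0 : ℝ, (0 < t ∧ t ≤ 1) ∧ (0 < δ ∧ δ ≤ 1 ∧ δ ≤ ε) ∧ 0 < q0 ∧ ∀ q : ℝ, 0 < q → q ≤ q0 →
      ∀ ε1 : ℝ, 0 < ε1 → ∃ N : ℕ, 3 ≤ N ∧ ∃ γ : ℝ, 0 < γ ∧ ∃ u0 : ℝ, 0 < u0 ∧
        ∀ n u B : ℝ, 0 < n → 0 < u → u ≤ u0 → 0 ≤ B → (B + 1) ^ 8 ≤ γ * (n * u ^ 6) →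
          ∃ R : ℝ, 0 < R ∧ 10 * N * R * (B + 1) = ε1 * u ^ 3 ∧
            1 ≤ ε1 * (n * u ^ 2) ∧ 1 ≤ ε1 * (n * u ^ 6) ∧ u ≤ 1 ∧ u ≤ ε1 ∧ C4 * u ≤ 1 ∧
            4 * (C4 * u) ^ 2 * (B0 + 3 * u ^ 3) ≤ 1 / 4 ∧
            ∀ E : ℝ, 0 ≤ E → E ≤ CE * (B + 1) * (n * u ^ 5) →
              64 * E / (y * u * n ^ 2 * R ^ 2) ≤ ε1 * u ^ 4 ∧
              5 * (C4 * u) ^ 2 / (N - 2) + 20 * (64 * E / (y * u * n ^ 2 * R ^ 2)) /
                (v * u * q / (2 * N + 2)) ^ 2 ≤ (δ * u) ^ 2 ∧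
              ∀ κ : ℝ, κ ≤ 3 * u ^ 3 →
                eN M (C4 * u) (δ * u) κ (64 * E / (y * u * n ^ 2 * R ^ 2))
                  (v * u * q / (2 * N + 2)) R t (v * u * q) n ≤ ε * u ^ 3 := by
  obtain ⟨t, ht⟩ : ∃ t, t = min 1 (ε / 8 / (M * C4 ^ 3 + 1)) := ⟨_, rfl⟩
  have ht0 : 0 < t := by rw [ht]; positivity
  have ht1 : t ≤ 1 := by rw [ht]; exact min_le_left _ _
  have ht2 : M * C4 ^ 3 * t ≤ ε / 8 := mul_le_of_le_div_add (by positivity) ht0.le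
    (by rw [ht]; exact min_le_right _ _)
  obtain ⟨δ, hδ⟩ : ∃ δ, δ = min ε (min 1 (ε / 8 * t / (M * C4 ^ 2 + 1))) := ⟨_, rfl⟩
  have hδ0 : 0 < δ := by rw [hδ]; positivity
  have hδε : δ ≤ ε := by rw [hδ]; exact min_le_left _ _
  have hδ1 : δ ≤ 1 := by rw [hδ]; exact (min_le_right _ _).trans (min_le_left _ _)
  have hδ2 : M * C4 ^ 2 * δ ≤ ε / 8 * t := mul_le_of_le_div_add (by positivity) hδ0.le (by
    rw [hδ]; exact (min_le_right _ _).trans (min_le_right _ _))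
  obtain ⟨q0, hq0⟩ : ∃ q0, q0 = ε / 8 / (M * (v * C4 ^ 2) + 1) := ⟨_, rfl⟩
  have hq00 : 0 < q0 := by rw [hq0]; positivity
  refine ⟨t, δ, q0, ⟨ht0, ht1⟩, ⟨hδ0, hδ1, hδε⟩, hq00, ?_⟩
  intro q hq hqq ε1 hε1
  have hq1 : M * (v * C4 ^ 2) * q ≤ ε / 8 := mul_le_of_le_div_add (by positivity) hq.le
    (hqq.trans (le_of_eq hq0))
  -- the number of the levels
  obtain ⟨N, hN⟩ : ∃ N : ℕ, 3 + 10 * C4 ^ 2 / δ ^ 2 ≤ (N : ℝ) := exists_nat_ge _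
  have hN3 : (3 : ℝ) ≤ N := by
    have : 0 ≤ 10 * C4 ^ 2 / δ ^ 2 := by positivity
    linarith
  have hNp : (0 : ℝ) < N := by linarith
  have hNn : 3 ≤ N := by exact_mod_cast hN3
  obtain ⟨s, hs⟩ : ∃ s, s = v * q / (2 * N + 2) := ⟨_, rfl⟩
  have hs0 : 0 < s := by rw [hs]; positivity
  -- the bound of the fluctuations
  obtain ⟨g0, hg0⟩ : ∃ g0, g0 = min ε1 (min (δ ^ 2 / 2 * s ^ 2 / 20)
    (ε / 8 * s / (M + 1))) := ⟨_, rfl⟩
  have hg00 : 0 < g0 := by rw [hg0]; positivity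
  have hg1 : g0 ≤ ε1 := by rw [hg0]; exact min_le_left _ _
  have hg2 : g0 ≤ δ ^ 2 / 2 * s ^ 2 / 20 := by
    rw [hg0]; exact (min_le_right _ _).trans (min_le_left _ _)
  have hg3 : M * g0 ≤ ε / 8 * s := mul_le_of_le_div_add (by positivity) hg00.le (by
    rw [hg0]; exact (min_le_right _ _).trans (min_le_right _ _))
  obtain ⟨K1, hK1⟩ : ∃ K1, K1 = 6400 * CE * N ^ 2 / (y * ε1 ^ 2) := ⟨_, rfl⟩
  have hK10 : 0 ≤ K1 := by rw [hK1]; positivity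
  obtain ⟨γ, hγ⟩ : ∃ γ, γ = min (min ε1 (g0 / (K1 + 1)))
    (min (ε / 8 / (M * (10 * N * C4 / ε1) + 1)) (ε / 8 / (M + 1))) := ⟨_, rfl⟩
  have hγ0 : 0 < γ := by rw [hγ]; positivity
  have hγ1 : γ ≤ ε1 := by rw [hγ]; exact (min_le_left _ _).trans (min_le_left _ _)
  have hγ2 : K1 * γ ≤ g0 := mul_le_of_le_div_add hK10 hγ0.le (by
    rw [hγ]; exact (min_le_left _ _).trans (min_le_right _ _))
  have hγ3 : M * (10 * N * C4 / ε1) * γ ≤ ε / 8 := mul_le_of_le_div_add (by positivity) hγ0.le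
    (by rw [hγ]; exact (min_le_right _ _).trans (min_le_left _ _))
  have hγ4 : M * γ ≤ ε / 8 := mul_le_of_le_div_add hM hγ0.le (by
    rw [hγ]; exact (min_le_right _ _).trans (min_le_right _ _))
  obtain ⟨u0, hu0⟩ : ∃ u0, u0 = min (min (min 1 ε1) (min (1 / (C4 + 1))
    (ε / 8 / (M * (3 * C4) + 1)))) (min (1 / (16 * (C4 ^ 2 * (B0 + 3)) + 1))
      (ε / 8 * t / (M * (C4 ^ 4 + 3 * C4 ^ 2) + 1))) := ⟨_, rfl⟩
  have hu00 : 0 < u0 := by rw [hu0]; positivity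
  refine ⟨N, hNn, γ, hγ0, u0, hu00, ?_⟩
  intro n u B hn hu huu hB hBB
  have hu1 : u ≤ 1 := huu.trans (by
    rw [hu0]; exact ((min_le_left _ _).trans (min_le_left _ _)).trans (min_le_left _ _))
  have huε : u ≤ ε1 := huu.trans (by
    rw [hu0]; exact ((min_le_left _ _).trans (min_le_left _ _)).trans (min_le_right _ _))
  have hC1 : C4 * u ≤ 1 := mul_le_of_le_div_add hC4 hu.le (huu.trans (by
    rw [hu0]; exact ((min_le_left _ _).trans (min_le_right _ _)).trans (min_le_left _ _)))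
  have hu5 : M * (3 * C4) * u ≤ ε / 8 := mul_le_of_le_div_add (by positivity) hu.le (huu.trans (by
    rw [hu0]; exact ((min_le_left _ _).trans (min_le_right _ _)).trans (min_le_right _ _)))
  have hu3 : 16 * (C4 ^ 2 * (B0 + 3)) * u ≤ 1 := mul_le_of_le_div_add (by positivity) hu.le
    (huu.trans (by rw [hu0]; exact (min_le_right _ _).trans (min_le_left _ _)))
  have hu4 : M * (C4 ^ 4 + 3 * C4 ^ 2) * u ≤ ε / 8 * t := mul_le_of_le_div_add (by positivity)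
    hu.le (huu.trans (by rw [hu0]; exact (min_le_right _ _).trans (min_le_right _ _)))
  have B1 : 1 ≤ B + 1 := by linarith
  have hx : 0 < n * u ^ 6 := by positivity
  have hγx : 1 ≤ γ * (n * u ^ 6) := (one_le_pow₀ B1).trans hBB
  have u2 : 0 < u ^ 2 := by positivity
  have hB10 : 0 < B + 1 := by linarith
  have hx6 : 1 ≤ ε1 * (n * u ^ 6) := hγx.trans (mul_le_mul_of_nonneg_right hγ1 hx.le)
  have hx2 : 1 ≤ ε1 * (n * u ^ 2) := by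
    refine hx6.trans (mul_le_mul_of_nonneg_left (mul_le_mul_of_nonneg_left ?_ hn.le) hε1.le)
    have : u ^ 6 = u ^ 2 * u ^ 4 := by ring
    rw [this]
    exact mul_le_of_le_one_right u2.le (pow_le_one₀ hu.le hu1)
  refine ⟨ε1 * u ^ 3 / (10 * N * (B + 1)), by positivity, by field_simp, hx2, hx6, hu1, huε, hC1, ?_,
    ?_⟩
  · have h2 : 4 * (C4 * u) ^ 2 * (B0 + 3 * u ^ 3) ≤ 4 * (C4 ^ 2 * u) * (B0 + 3) := by
      have a1 : (C4 * u) ^ 2 ≤ C4 ^ 2 * u := by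
        have : (C4 * u) ^ 2 = C4 ^ 2 * u * u := by ring
        rw [this]
        exact mul_le_of_le_one_right (by positivity) hu1
      have a2 : B0 + 3 * u ^ 3 ≤ B0 + 3 := by
        have : u ^ 3 ≤ 1 := pow_le_one₀ hu.le hu1
        linarith
      exact mul_le_mul (mul_le_mul_of_nonneg_left a1 (by norm_num)) a2 (by positivity)
        (by positivity)
    have h3 : 4 * (C4 ^ 2 * u) * (B0 + 3) = 16 * (C4 ^ 2 * (B0 + 3)) * u / 4 := by ring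
    rw [h3] at h2
    linarith
  · intro E hE0 hE
    exact consts_fin hC4 hCE hM hy hε ht0 hδ0 hε1 hN3 hN hg1 hs0 hg2 hg3 hK1 hγ0 hγ2
      hγ3 hγ4 hu4 hu5 ht2 hδ2 hq1 hn hu hu1 hB hBB rfl (by rw [hs]; ring) hE0 hE

end Vale.Agent.P146.H645x
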