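import Vale.Agent.P146.H645x.Cst
import Vale.Agent.P146.H877x.RowW

/-!
# P146: the choice of the numbers of the bundles, in the letter `eT` of helper877 (helper645)
-/

namespace Vale.Agent.P146.H645x

open Vale.Agent.P146.H877x

lemma eT_eq {n : ℕ} {θ D κ B0 g π R t δ : ℝ} : eT n θ D κ B0 g π R t δ =
    eN (KV ^ 2 * (1000000000000 * B0 ^ 5)) θ D κ g π R t δ n := rfl

/-- **The choice of the numbers of the bundles**, `eT` version. -/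
theorem constsT {C4 CE B0 y v ε : ℝ} (hC4 : 0 ≤ C4) (hCE : 0 ≤ CE) (hB0 : 0 ≤ B0)
    (hy : 0 < y) (hv : 0 < v) (hε : 0 < ε) :
    ∃ t δ q0 : ℝ, (0 < t ∧ t ≤ 1) ∧ (0 < δ ∧ δ ≤ 1 ∧ δ ≤ ε) ∧ 0 < q0 ∧
      ∀ q : ℝ, 0 < q → q ≤ q0 → ∀ ε1 : ℝ, 0 < ε1 → ∃ N : ℕ, 3 ≤ N ∧ ∃ γ : ℝ, 0 < γ ∧
        ∃ u0 : ℝ, 0 < u0 ∧ ∀ (n : ℕ) (u B : ℝ), 0 < n → 0 < u → u ≤ u0 → 0 ≤ B →
          (B + 1) ^ 8 ≤ γ * (n * u ^ 6) →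
          ∃ R : ℝ, 0 < R ∧ 10 * N * R * (B + 1) = ε1 * u ^ 3 ∧
            1 ≤ ε1 * (n * u ^ 2) ∧ 1 ≤ ε1 * (n * u ^ 6) ∧ u ≤ 1 ∧ u ≤ ε1 ∧ C4 * u ≤ 1 ∧
            4 * (C4 * u) ^ 2 * (B0 + 3 * u ^ 3) ≤ 1 / 4 ∧
            ∀ E : ℝ, 0 ≤ E → E ≤ CE * (B + 1) * (n * u ^ 5) →
              64 * E / (y * u * n ^ 2 * R ^ 2) ≤ ε1 * u ^ 4 ∧
              5 * (C4 * u) ^ 2 / (N - 2) + 20 * (64 * E / (y * u * n ^ 2 * R ^ 2)) /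
                (v * u * q / (2 * N + 2)) ^ 2 ≤ (δ * u) ^ 2 ∧
              ∀ κ : ℝ, κ ≤ 3 * u ^ 3 →
                eT n (C4 * u) (δ * u) κ B0 (64 * E / (y * u * n ^ 2 * R ^ 2))
                  (v * u * q / (2 * N + 2)) R t (v * u * q) ≤ ε * u ^ 3 := by
  obtain ⟨t, δ, q0, h1, h2, h3, h4⟩ := consts (M := KV ^ 2 * (1000000000000 * B0 ^ 5)) hC4 hCE
    (by positivity) hB0 hy hv hε
  refine ⟨t, δ, q0, h1, h2, h3, fun q hq hq' ε1 hε1 => ?_⟩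
  obtain ⟨N, hN, γ, hγ, u0, hu0, h5⟩ := h4 q hq hq' ε1 hε1
  exact ⟨N, hN, γ, hγ, u0, hu0, fun n u B hn hu hu' hB hB' =>
    h5 n u B (Nat.cast_pos.2 hn) hu hu' hB hB'⟩

end Vale.Agent.P146.H645x
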