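import Vale.Agent.P146.H645x.HitP

/-!
# P146, lower half: the hitting lemma with the induction hypothesis of all larger scales

The hitting hypothesis may use that the conclusion holds at all scales `y ∈ [u, x0]`.
-/

open MeasureTheory ProbabilityTheory Set

namespace Vale.Agent.P146.H645x

/-- **Hitting lemma** (first failure from the top). -/
theorem hit2 {Q : ℝ → ℝ} {x1 x0 a : ℝ} (hQ : ContinuousOn Q (Ioi 0)) (hx1 : 0 < x1)
    (h0 : a ≤ Q x0)
    (hF : ∀ u, x1 ≤ u → u ≤ x0 →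
      (∀ y, u ≤ y → y ≤ x0 → ∃ v, y / 2 ≤ v ∧ v ≤ y ∧ a ≤ Q v) →
      Q u = a → (∀ v, u / 2 ≤ v → v < u → Q v < a) → False) :
    ∀ x, x1 ≤ x → x ≤ x0 → ∃ v, x / 2 ≤ v ∧ v ≤ x ∧ a ≤ Q v := by
  intro x hx hxx0
  by_contra hcon
  push Not at hcon
  have hxp : 0 < x := hx1.trans_le hx
  obtain ⟨S, hS⟩ : ∃ S : Set ℝ, S = {y | x1 ≤ y ∧ y ≤ x0 ∧ ∀ v, y / 2 ≤ v → v ≤ y → Q v < a} :=
    ⟨_, rfl⟩
  have hxS : x ∈ S := by
    rw [hS]
    exact ⟨hx, hxx0, hcon⟩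
  have hbd : BddAbove S := ⟨x0, fun y hy => by rw [hS] at hy; exact hy.2.1⟩
  obtain ⟨s, hs⟩ : ∃ s, s = sSup S := ⟨_, rfl⟩
  have hxs : x ≤ s := by
    rw [hs]
    exact le_csSup hbd hxS
  have hsx0 : s ≤ x0 := by
    rw [hs]
    exact csSup_le ⟨x, hxS⟩ fun y hy => by rw [hS] at hy; exact hy.2.1
  have hsp : 0 < s := hxp.trans_le hxs
  have hopen : IsOpen {v | v ∈ Ioi (0 : ℝ) ∧ Q v < a} := by
    have h := hQ.isOpen_inter_preimage isOpen_Ioi (isOpen_Iio (a := a))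
    exact h
  have hopen' : IsOpen {v | v ∈ Ioi (0 : ℝ) ∧ a < Q v} := by
    have h := hQ.isOpen_inter_preimage isOpen_Ioi (isOpen_Ioi (a := a))
    exact h
  -- above `s` there are no failures
  have hA : ∀ y, s < y → y ≤ x0 → ∃ v, y / 2 ≤ v ∧ v ≤ y ∧ a ≤ Q v := by
    intro y hy hy0
    by_contra hc
    push Not at hc
    have h1 : y ∈ S := by
      rw [hS]
      exact ⟨by linarith, hy0, hc⟩
    have h2 := le_csSup hbd h1
    rw [← hs] at h2
    linarith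
  -- `s` is not a failure
  have hB : ∃ v, s / 2 ≤ v ∧ v ≤ s ∧ a ≤ Q v := by
    by_contra hc
    push Not at hc
    have hK : Icc (s / 2) s ⊆ {v | v ∈ Ioi (0 : ℝ) ∧ Q v < a} := fun v hv =>
      ⟨by have := hv.1; show 0 < v; linarith, hc v hv.1 hv.2⟩
    obtain ⟨δ, hδ, hδ2⟩ := isCompact_Icc.exists_thickening_subset_open hopen hK
    rcases hsx0.lt_or_eq with h | h
    · obtain ⟨y, hy⟩ : ∃ y, y = s + min (δ / 2) (x0 - s) := ⟨_, rfl⟩
      have h1 : min (δ / 2) (x0 - s) ≤ δ / 2 := min_le_left _ _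
      have h2 : min (δ / 2) (x0 - s) ≤ x0 - s := min_le_right _ _
      have h3 : 0 < min (δ / 2) (x0 - s) := lt_min (by linarith) (by linarith)
      obtain ⟨v, hv1, hv2, hv3⟩ := hA y (by linarith) (by linarith)
      have h4 : v ∈ Metric.thickening δ (Icc (s / 2) s) := by
        rw [Metric.mem_thickening_iff]
        rcases le_total v s with h5 | h5
        · exact ⟨v, ⟨by linarith, h5⟩, by rw [dist_self]; exact hδ⟩
        · refine ⟨s, ⟨by linarith, le_rfl⟩, ?_⟩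
          rw [Real.dist_eq, abs_of_nonneg (by linarith)]
          linarith
      have h5 := (hδ2 h4).2
      linarith
    · have := hc s (by linarith) le_rfl
      rw [h] at this
      linarith
  have hC : ∀ v, s / 2 ≤ v → v < s → Q v < a := by
    intro v hv1 hv2
    rw [hs] at hv2
    obtain ⟨y, hy, hvy⟩ := exists_lt_of_lt_csSup ⟨x, hxS⟩ hv2
    have hys : y ≤ s := by
      rw [hs]
      exact le_csSup hbd hy
    rw [hS] at hy
    exact hy.2.2 v (by linarith) hvy.le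
  obtain ⟨v, hv1, hv2, hv3⟩ := hB
  have hvs : v = s := by
    rcases hv2.lt_or_eq with h | h
    · have := hC v hv1 h
      linarith
    · exact h
  rw [hvs] at hv3
  have hQs : Q s = a := by
    refine le_antisymm ?_ hv3
    by_contra hc
    push Not at hc
    have h1 : s ∈ {v | v ∈ Ioi (0 : ℝ) ∧ a < Q v} := ⟨hsp, hc⟩
    obtain ⟨ε, hε, hε2⟩ := Metric.isOpen_iff.1 hopen' s h1
    obtain ⟨t, ht⟩ : ∃ t, t = s - min (ε / 2) (s / 2) := ⟨_, rfl⟩
    have h2 : min (ε / 2) (s / 2) ≤ ε / 2 := min_le_left _ _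
    have h3 : min (ε / 2) (s / 2) ≤ s / 2 := min_le_right _ _
    have h4 : 0 < min (ε / 2) (s / 2) := lt_min (by linarith) (by linarith)
    have h5 : t ∈ Metric.ball s ε := by
      rw [Metric.mem_ball, Real.dist_eq, abs_sub_comm, abs_of_nonneg (by linarith)]
      linarith
    have h6 := (hε2 h5).2
    have h7 := hC t (by linarith) (by linarith)
    linarith
  refine hF s (hx.trans hxs) hsx0 ?_ hQs hC
  intro y hy1 hy2
  rcases hy1.lt_or_eq with h | h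
  · exact hA y h hy2
  · rw [← h]
    exact ⟨s, by linarith, le_rfl, hv3⟩

open Vale.Agent.P146.U

variable {n : ℕ} {β a κ x0 x1 : ℝ}

/-- **The output of the flow, with the induction hypothesis of all the larger scales.** -/
theorem flow2 (hn : 0 < n) (hκ : 0 < κ) (hκ1 : κ ≤ 1) (ha : 0 ≤ a) (hx1 : 0 < x1)
    (h0 : a * (κ * (n * x0 ^ 5)) ≤ P1 n β ((1 + κ) * x0) - P1 n β x0)
    (hF : ∀ u, x1 ≤ u → u ≤ x0 →
      (∀ y, u ≤ y → y ≤ x0 →
        ∃ v, y / 2 ≤ v ∧ v ≤ y ∧ a * (κ * (n * v ^ 5)) ≤ P1 n β ((1 + κ) * v) - P1 n β v) →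
      P1 n β ((1 + κ) * u) - P1 n β u = a * (κ * (n * u ^ 5)) →
      (∀ v, u / 2 ≤ v → v < u → P1 n β ((1 + κ) * v) - P1 n β v < a * (κ * (n * v ^ 5))) →
      False) :
    (∀ x, x1 ≤ x → x ≤ x0 →
      (∃ v, x / 2 ≤ v ∧ v ≤ x ∧ a * (κ * (n * v ^ 5)) ≤ P1 n β ((1 + κ) * v) - P1 n β v) ∧
      a * (κ * (n * (x / 2) ^ 5)) ≤ P1 n β ((1 + κ) * x) - P1 n β (x / 2)) ∧
    ∀ y, (1 + κ) * x1 ≤ y → y ≤ (1 + κ) * x0 → a * κ / 384 * (n * y ^ 4) ≤ AP.Wn n β y := by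
  have hN : (0 : ℝ) < n := by exact_mod_cast hn
  have hQ := cont_Qw (P := P1 n β) (κ := κ) (N := n) cont_P1 hκ hN
  have key : ∀ v, 0 < v → (a ≤ Qw (P1 n β) κ n v ↔
      a * (κ * (n * v ^ 5)) ≤ P1 n β ((1 + κ) * v) - P1 n β v) := by
    intro v hv
    unfold Qw
    rw [le_div_iff₀ (by positivity), mul_assoc κ]
  have key' : ∀ v, 0 < v → (Qw (P1 n β) κ n v < a ↔
      P1 n β ((1 + κ) * v) - P1 n β v < a * (κ * (n * v ^ 5))) := by
    intro v hv
    unfold Qw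
    rw [div_lt_iff₀ (by positivity), mul_assoc κ]
  have hG : ∀ x, x1 ≤ x → x ≤ x0 →
      ∃ v, x / 2 ≤ v ∧ v ≤ x ∧ a ≤ Qw (P1 n β) κ n v := by
    intro x hx hxx
    have hx00 : 0 < x0 := hx1.trans_le (hx.trans hxx)
    refine hit2 hQ hx1 ((key x0 hx00).2 h0) ?_ x hx hxx
    intro u hu hu0 hy hQu hlt
    have hup : 0 < u := hx1.trans_le hu
    refine hF u hu hu0 ?_ ?_ ?_
    · intro y hy1 hy2
      obtain ⟨v, hv1, hv2, hv3⟩ := hy y hy1 hy2
      exact ⟨v, hv1, hv2, (key v (by linarith)).1 hv3⟩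
    · unfold Qw at hQu
      rw [div_eq_iff (by positivity), mul_assoc κ] at hQu
      exact hQu
    · intro v hv1 hv2
      exact (key' v (by linarith)).1 (hlt v hv1 hv2)
  refine flow hn hκ hκ1 ha hx1 h0 ?_
  intro u hu hu0 hQu
  -- the point below `u` given by the hitting lemma at a smaller scale or by `hF`
  by_contra hc
  push Not at hc
  refine hF u hu hu0 ?_ hQu hc
  intro y hy1 hy2
  obtain ⟨v, hv1, hv2, hv3⟩ := hG y (hu.trans hy1) hy2
  exact ⟨v, hv1, hv2, (key v (by linarith)).1 hv3⟩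

end Vale.Agent.P146.H645x
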