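import Vale.Agent.P146.H560.Unit
import Vale.Agent.P146.H645x.Hit2

/-!
# P146, lower half: the hitting lemma in the letters `QU`
-/

open MeasureTheory ProbabilityTheory Set

namespace Vale.Agent.P146.H645x

open Vale.Agent.P146.U Vale.Agent.P146.H560

variable {n : ℕ} {β a c κ v x x0 x1 : ℝ}

lemma le_QU_iff (hn : 0 < n) (hκ : 0 < κ) (hv : 0 < v) :
    a ≤ QU n β κ v ↔ a * (κ * (n * v ^ 5)) ≤ P1 n β ((1 + κ) * v) - P1 n β v := by
  have hN : (0 : ℝ) < n := by exact_mod_cast hn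
  unfold QU
  rw [le_div_iff₀ (by positivity)]

lemma QU_lt_iff (hn : 0 < n) (hκ : 0 < κ) (hv : 0 < v) :
    QU n β κ v < a ↔ P1 n β ((1 + κ) * v) - P1 n β v < a * (κ * (n * v ^ 5)) := by
  have hN : (0 : ℝ) < n := by exact_mod_cast hn
  unfold QU
  rw [div_lt_iff₀ (by positivity)]

lemma QU_eq_iff (hn : 0 < n) (hκ : 0 < κ) (hv : 0 < v) :
    QU n β κ v = a ↔ P1 n β ((1 + κ) * v) - P1 n β v = a * (κ * (n * v ^ 5)) := by
  have hN : (0 : ℝ) < n := by exact_mod_cast hn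
  unfold QU
  rw [div_eq_iff (by positivity)]

/-- the start -/
theorem start_Q (hn : 0 < n) (hκ : 0 < κ) (hx : 0 < x) (hW : c * (n * x ^ 4) ≤ AP.Wn n β x) :
    c / 2 ≤ QU n β κ x :=
  (le_QU_iff hn hκ hx).2 (start_P hκ.le hx hW)

/-- **The output of the flow in the letters `QU`, with the induction hypothesis of all the larger
scales.** -/
theorem flowQ (hn : 0 < n) (hκ : 0 < κ) (hκ1 : κ ≤ 1) (ha : 0 ≤ a) (hx1 : 0 < x1)
    (h0 : a ≤ QU n β κ x0)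
    (hF : ∀ u, x1 ≤ u → u ≤ x0 →
      (∀ y, u ≤ y → y ≤ x0 → ∃ v, y / 2 ≤ v ∧ v ≤ y ∧ a ≤ QU n β κ v) →
      QU n β κ u = a → (∀ v, u / 2 ≤ v → v < u → QU n β κ v < a) → False) :
    (∀ x, x1 ≤ x → x ≤ x0 → ∃ v, x / 2 ≤ v ∧ v ≤ x ∧ a ≤ QU n β κ v) ∧
    ∀ y, (1 + κ) * x1 ≤ y → y ≤ (1 + κ) * x0 → a * κ / 384 * (n * y ^ 4) ≤ AP.Wn n β y := by
  rcases lt_or_ge x0 x1 with h10 | h10
  · refine ⟨fun x hx hxx => by linarith, fun y hy hyy => ?_⟩
    nlinarith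
  have hx00 : 0 < x0 := hx1.trans_le h10
  have h := flow2 (β := β) hn hκ hκ1 ha hx1 ((le_QU_iff hn hκ hx00).1 h0) (by
    intro u hu hu0 hy hQu hlt
    have hup : 0 < u := hx1.trans_le hu
    refine hF u hu hu0 ?_ ((QU_eq_iff hn hκ hup).2 hQu) ?_
    · intro y hy1 hy2
      obtain ⟨v, hv1, hv2, hv3⟩ := hy y hy1 hy2
      exact ⟨v, hv1, hv2, (le_QU_iff hn hκ (by linarith)).2 hv3⟩
    · intro v hv1 hv2
      exact (QU_lt_iff hn hκ (by linarith)).2 (hlt v hv1 hv2))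
  refine ⟨fun x hx hxx => ?_, h.2⟩
  obtain ⟨⟨v, hv1, hv2, hv3⟩, -⟩ := h.1 x hx hxx
  have : 0 < x := hx1.trans_le hx
  exact ⟨v, hv1, hv2, (le_QU_iff hn hκ (by linarith)).2 hv3⟩

/-- growth of the pure laws at zero field from the points `v` of the flow: for `x ∈ [x1, x0]`
and `y ≥ (1 + κ) x`, the share `Wn` is at least `(a κ / 24) n x⁴` -/
theorem Wn_ge_of_QU (hn : 0 < n) (hκ : 0 < κ) (hκ1 : κ ≤ 1) (ha : 0 ≤ a) (hx : 0 < x)
    (h : ∃ v, x / 2 ≤ v ∧ v ≤ x ∧ a ≤ QU n β κ v) :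
    a / 8 * (n * x ^ 4) ≤ AP.Wn n β ((1 + κ) * x) := by
  obtain ⟨v, hv1, hv2, hv3⟩ := h
  have hN : (0 : ℝ) < n := by exact_mod_cast hn
  have hv0 : 0 < v := by linarith
  have h1 := (le_QU_iff hn hκ hv0).1 hv3
  have h2 := P1_le_tan (n := n) (β := β) (a := v) (b := (1 + κ) * v) hv0 (by nlinarith)
  have h3 : κ * v / 2 * (2 * a * (n * v ^ 4)) ≤ κ * v / 2 * AP.Wn n β ((1 + κ) * v) := by
    have e : ((1 + κ) * v - v) / 2 = κ * v / 2 := by ring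
    rw [e] at h2
    have e2 : κ * v / 2 * (2 * a * (n * v ^ 4)) = a * (κ * (n * v ^ 5)) := by ring
    rw [e2]
    exact h1.trans h2
  have h4 := le_of_mul_le_mul_left h3 (by positivity)
  have h5 : AP.Wn n β ((1 + κ) * v) ≤ AP.Wn n β ((1 + κ) * x) := by
    rcases hv2.lt_or_eq with hlt | heq
    · have hlt' : (1 + κ) * v < (1 + κ) * x := mul_lt_mul_of_pos_left hlt (by linarith)
      have k1 := P1_ge_tan (n := n) (β := β) (a := (1 + κ) * v) (b := (1 + κ) * x)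
        (by positivity) hlt'.le
      have k2 := P1_le_tan (n := n) (β := β) (a := (1 + κ) * v) (b := (1 + κ) * x)
        (by positivity) hlt'.le
      exact le_of_mul_le_mul_left (k1.trans k2) (by linarith)
    · rw [heq]
  have h6 : x ^ 4 / 16 ≤ v ^ 4 := by
    have := pow_le_pow_left₀ (by positivity : 0 ≤ x / 2) hv1 4
    refine le_trans (le_of_eq ?_) this
    ring
  calc a / 8 * (n * x ^ 4) = 2 * a * (n * (x ^ 4 / 16)) := by ring
    _ ≤ 2 * a * (n * v ^ 4) := by gcongr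
    _ ≤ _ := h4.trans h5

end Vale.Agent.P146.H645x
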