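import Mathlib

/-!
# P146, lower half: the hitting lemma

A continuous quantity `Q` which is `≥ a` at `x0`, and which at every point `u` where it is equal to
`a` is again `≥ a` somewhere in `[u / 2, u)`, is `≥ a` somewhere in `[x / 2, x]` for every `x`.
-/

open Set

namespace Vale.Agent.P146.H645x

/-- **Hitting lemma.** -/
theorem hit {Q : ℝ → ℝ} {x1 x0 a : ℝ} (hQ : ContinuousOn Q (Ioi 0)) (hx1 : 0 < x1)
    (h0 : a ≤ Q x0)
    (hF : ∀ u, x1 ≤ u → u ≤ x0 → Q u = a → ∃ v, u / 2 ≤ v ∧ v < u ∧ a ≤ Q v) :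
    ∀ x, x1 ≤ x → x ≤ x0 → ∃ v, x / 2 ≤ v ∧ v ≤ x ∧ a ≤ Q v := by
  intro x hx hx0
  by_contra hcon
  push Not at hcon
  have hxp : 0 < x := hx1.trans_le hx
  have hc : ContinuousOn Q (Icc x x0) := hQ.mono fun v hv => hxp.trans_le hv.1
  obtain ⟨S, hS⟩ : ∃ S : Set ℝ, S = {v ∈ Icc x x0 | a ≤ Q v} := ⟨_, rfl⟩
  have hne : S.Nonempty := ⟨x0, by rw [hS]; exact ⟨⟨hx0, le_rfl⟩, h0⟩⟩
  have hcl : IsClosed S := by
    have h := hc.preimage_isClosed_of_isClosed isClosed_Icc (isClosed_Ici (a := a))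
    rw [hS]
    exact h
  have hbd : BddBelow S := ⟨x, fun v hv => by rw [hS] at hv; exact hv.1.1⟩
  obtain ⟨u, hu⟩ : ∃ u, u = sInf S := ⟨_, rfl⟩
  have huS : u ∈ S := by
    rw [hu]
    exact hcl.csInf_mem hne hbd
  have hlt : ∀ v, v ∈ Icc x x0 → v < u → Q v < a := by
    intro v hv hvu
    by_contra hcon2
    have h1 : v ∈ S := by
      rw [hS]
      exact ⟨hv, not_lt.1 hcon2⟩
    have h2 := csInf_le hbd h1
    rw [← hu] at h2
    linarith
  rw [hS] at huS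
  obtain ⟨⟨hxu, hux0⟩, hau⟩ := huS
  have hQx : Q x < a := hcon x (by linarith) le_rfl
  have hxu' : x < u := by
    rcases hxu.lt_or_eq with h | h
    · exact h
    · rw [← h] at hau
      linarith
  have hQu : Q u = a := by
    have h1 : a ∈ Icc (Q x) (Q u) := ⟨hQx.le, hau⟩
    obtain ⟨v, hv, hva⟩ := intermediate_value_Icc hxu (hc.mono (Icc_subset_Icc le_rfl hux0)) h1
    rcases hv.2.lt_or_eq with h | h
    · have := hlt v ⟨hv.1, hv.2.trans hux0⟩ h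
      linarith
    · rw [← h]
      exact hva
  obtain ⟨v, hv1, hv2, hv3⟩ := hF u (hx.trans hxu) hux0 hQu
  rcases le_or_gt x v with h | h
  · have := hlt v ⟨h, hv2.le.trans hux0⟩ hv2
    linarith
  · have := hcon v (by linarith) h.le
    linarith

/-- The quotient of the window `[v, (1 + κ) v]`. -/
noncomputable def Qw (P : ℝ → ℝ) (κ N v : ℝ) : ℝ := (P ((1 + κ) * v) - P v) / (κ * N * v ^ 5)

lemma cont_Qw {P : ℝ → ℝ} {κ N : ℝ} (hP : ContinuousOn P (Ioi 0)) (hκ : 0 < κ) (hN : 0 < N) :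
    ContinuousOn (Qw P κ N) (Ioi 0) := by
  unfold Qw
  refine ContinuousOn.div (ContinuousOn.sub (hP.comp (by fun_prop) ?_) hP) (by fun_prop) ?_
  · intro v hv
    have : (0 : ℝ) < v := hv
    show 0 < (1 + κ) * v
    positivity
  · intro v hv
    have : (0 : ℝ) < v := hv
    positivity

/-- **The output of the flow for a monotone `P`.** -/
theorem flow_P {P : ℝ → ℝ} {κ N x1 x0 a : ℝ} (hP : ContinuousOn P (Ioi 0))
    (hmono : MonotoneOn P (Ioi 0)) (hκ : 0 < κ) (hN : 0 < N) (ha : 0 ≤ a) (hx1 : 0 < x1)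
    (h0 : a * (κ * N * x0 ^ 5) ≤ P ((1 + κ) * x0) - P x0)
    (hF : ∀ u, x1 ≤ u → u ≤ x0 → P ((1 + κ) * u) - P u = a * (κ * N * u ^ 5) →
      ∃ v, u / 2 ≤ v ∧ v < u ∧ a * (κ * N * v ^ 5) ≤ P ((1 + κ) * v) - P v) :
    ∀ x, x1 ≤ x → x ≤ x0 →
      (∃ v, x / 2 ≤ v ∧ v ≤ x ∧ a * (κ * N * v ^ 5) ≤ P ((1 + κ) * v) - P v) ∧
      a * (κ * N * (x / 2) ^ 5) ≤ P ((1 + κ) * x) - P (x / 2) := by
  intro x hx hxx0
  have hxp : 0 < x := hx1.trans_le hx
  have hx0 : 0 < x0 := hxp.trans_le hxx0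
  have key : ∀ v, 0 < v → (a ≤ Qw P κ N v ↔ a * (κ * N * v ^ 5) ≤ P ((1 + κ) * v) - P v) := by
    intro v hv
    unfold Qw
    rw [le_div_iff₀ (by positivity)]
  have h1 := hit (cont_Qw hP hκ hN) hx1 ((key x0 hx0).2 h0) (by
    intro u hu hu0 hQ
    have hup : 0 < u := hx1.trans_le hu
    have h2 : P ((1 + κ) * u) - P u = a * (κ * N * u ^ 5) := by
      unfold Qw at hQ
      rw [div_eq_iff (by positivity)] at hQ
      exact hQ
    obtain ⟨v, hv1, hv2, hv3⟩ := hF u hu hu0 h2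
    exact ⟨v, hv1, hv2, (key v (by linarith)).2 hv3⟩) x hx hxx0
  obtain ⟨v, hv1, hv2, hv3⟩ := h1
  have hv0 : 0 < v := by linarith
  have h3 := (key v hv0).1 hv3
  refine ⟨⟨v, hv1, hv2, h3⟩, ?_⟩
  have m1 : P ((1 + κ) * v) ≤ P ((1 + κ) * x) := by
    refine hmono ?_ ?_ ?_
    · show 0 < (1 + κ) * v
      positivity
    · show 0 < (1 + κ) * x
      positivity
    · exact mul_le_mul_of_nonneg_left hv2 (by linarith)
  have m2 : P (x / 2) ≤ P v := hmono (by show 0 < x / 2; positivity) hv0 hv1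
  have m3 : (x / 2) ^ 5 ≤ v ^ 5 := pow_le_pow_left₀ (by positivity) hv1 5
  have m4 : a * (κ * N * (x / 2) ^ 5) ≤ a * (κ * N * v ^ 5) := by gcongr
  linarith

end Vale.Agent.P146.H645x
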