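import Vale.Agent.P146.U.AP
import Vale.Agent.P146.U.AP3
import Vale.Agent.P146.H645x.Hit

/-!
# P146, lower half: the hitting lemma for `P1 n β` and the share `Wn n β` of the pure law

`QU n β κ v = (P1 ((1 + κ) v) - P1 v) / (κ n v⁵)` is used in the product form
`a (κ (n v⁵)) ≤ P1 ((1 + κ) v) - P1 v`.
-/

open MeasureTheory ProbabilityTheory Set

namespace Vale.Agent.P146.H645x

open Vale.Agent.P157.Lv Vale.Agent.P146.H425 Vale.Agent.P146.R1 Vale.Agent.P146.H332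
  Vale.Agent.P146.H325 Vale.Agent.P146.U

variable {n : ℕ} {β a b c κ x x0 x1 : ℝ}

/-- the tangent at the left end -/
theorem P1_ge_tan (ha : 0 < a) (hab : a ≤ b) :
    (b - a) / 2 * AP.Wn n β a ≤ P1 n β b - P1 n β a := by
  have h1 := PP_tangent (b := a) (b' := b) (c := 0) (s := 1) (AP.c11_Fsk n β) (AP.cv_Fsk n β)
    ha ha (ha.trans_le hab)
  have e : ∀ t, PP a t 0 1 (Fsk n β) = P1 n β t := fun t => AP.PP_c0 ha
  rw [e, e] at h1
  unfold AP.Wn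
  linarith

/-- the tangent at the right end -/
theorem P1_le_tan (ha : 0 < a) (hab : a ≤ b) :
    P1 n β b - P1 n β a ≤ (b - a) / 2 * AP.Wn n β b := by
  have hb : 0 < b := ha.trans_le hab
  have h1 := PP_tangent (b := b) (b' := a) (c := 0) (s := 1) (AP.c11_Fsk n β) (AP.cv_Fsk n β)
    hb hb ha
  have e : ∀ t, PP b t 0 1 (Fsk n β) = P1 n β t := fun t => AP.PP_c0 hb
  rw [e, e] at h1
  unfold AP.Wn
  linarith

theorem P1_lip (ha : 0 < a) (hab : a ≤ b) :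
    P1 n β b ≤ P1 n β a + (b - a) / 2 * (β ^ 2 / 2 * n) := by
  have h := AP.W_le_add (AP.c11_Fsk n β) (AP.cv_Fsk n β) ha hab (AP.grad_Fsk n β) 1 0
  simpa [P1] using h

theorem mono_P1 : MonotoneOn (P1 n β) (Ioi 0) := fun _ ha _ _ hab => P1_mono ha hab

theorem cont_P1 : ContinuousOn (P1 n β) (Ioi 0) := by
  have hL : 0 ≤ β ^ 2 / 4 * n := by positivity
  have h : LipschitzOnWith ⟨β ^ 2 / 4 * n, hL⟩ (P1 n β) (Ioi 0) := by
    refine LipschitzOnWith.of_dist_le_mul fun a ha b hb => ?_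
    have ha' : 0 < a := ha
    have hb' : 0 < b := hb
    rw [Real.dist_eq, Real.dist_eq]
    show |P1 n β a - P1 n β b| ≤ β ^ 2 / 4 * n * |a - b|
    rcases le_total a b with h | h
    · have h1 := P1_lip (n := n) (β := β) ha' h
      have h2 := P1_mono (n := n) (β := β) ha' h
      rw [abs_sub_comm, abs_of_nonneg (by linarith), abs_sub_comm, abs_of_nonneg (by linarith)]
      nlinarith
    · have h1 := P1_lip (n := n) (β := β) hb' h
      have h2 := P1_mono (n := n) (β := β) hb' h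
      rw [abs_of_nonneg (by linarith), abs_of_nonneg (by linarith)]
      nlinarith
  exact h.continuousOn

/-- the start of the flow -/
theorem start_P (hκ : 0 ≤ κ) (hx : 0 < x) (hW : c * (n * x ^ 4) ≤ AP.Wn n β x) :
    c / 2 * (κ * (n * x ^ 5)) ≤ P1 n β ((1 + κ) * x) - P1 n β x := by
  have h1 := P1_ge_tan (n := n) (β := β) (a := x) (b := (1 + κ) * x) hx (by nlinarith)
  have h2 : ((1 + κ) * x - x) / 2 * (c * (n * x ^ 4)) ≤ ((1 + κ) * x - x) / 2 * AP.Wn n β x := by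
    refine mul_le_mul_of_nonneg_left hW ?_
    have : 0 ≤ κ * x := by positivity
    linarith
  refine le_trans (le_of_eq ?_) (h2.trans h1)
  ring

/-- **The output of the flow.** If every point `u ∈ [x1, x0]` where
`P1 ((1 + κ) u) - P1 u = a κ n u⁵` is followed by a point `v ∈ [u / 2, u)` with
`P1 ((1 + κ) v) - P1 v ≥ a κ n v⁵`, then such a `v` exists in every `[x / 2, x]`, and
`Wn ≥ (a κ / 384) n y⁴` on `[(1 + κ) x1, (1 + κ) x0]`. -/
theorem flow (hn : 0 < n) (hκ : 0 < κ) (hκ1 : κ ≤ 1) (ha : 0 ≤ a) (hx1 : 0 < x1)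
    (h0 : a * (κ * (n * x0 ^ 5)) ≤ P1 n β ((1 + κ) * x0) - P1 n β x0)
    (hF : ∀ u, x1 ≤ u → u ≤ x0 → P1 n β ((1 + κ) * u) - P1 n β u = a * (κ * (n * u ^ 5)) →
      ∃ v, u / 2 ≤ v ∧ v < u ∧ a * (κ * (n * v ^ 5)) ≤ P1 n β ((1 + κ) * v) - P1 n β v) :
    (∀ x, x1 ≤ x → x ≤ x0 →
      (∃ v, x / 2 ≤ v ∧ v ≤ x ∧ a * (κ * (n * v ^ 5)) ≤ P1 n β ((1 + κ) * v) - P1 n β v) ∧
      a * (κ * (n * (x / 2) ^ 5)) ≤ P1 n β ((1 + κ) * x) - P1 n β (x / 2)) ∧
    ∀ y, (1 + κ) * x1 ≤ y → y ≤ (1 + κ) * x0 → a * κ / 384 * (n * y ^ 4) ≤ AP.Wn n β y := by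
  have hN : (0 : ℝ) < n := by exact_mod_cast hn
  have key := flow_P (P := P1 n β) (κ := κ) (N := n) (x1 := x1) (x0 := x0) (a := a) cont_P1
    mono_P1 hκ hN ha hx1 (by rw [mul_assoc κ]; exact h0) (by
      intro u hu hu0 h
      obtain ⟨v, hv1, hv2, hv3⟩ := hF u hu hu0 (by rw [h]; ring)
      exact ⟨v, hv1, hv2, by rw [mul_assoc κ]; exact hv3⟩)
  have key2 : ∀ x, x1 ≤ x → x ≤ x0 →
      (∃ v, x / 2 ≤ v ∧ v ≤ x ∧ a * (κ * (n * v ^ 5)) ≤ P1 n β ((1 + κ) * v) - P1 n β v) ∧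
      a * (κ * (n * (x / 2) ^ 5)) ≤ P1 n β ((1 + κ) * x) - P1 n β (x / 2) := by
    intro x hx hxx
    obtain ⟨⟨v, hv1, hv2, hv3⟩, h2⟩ := key x hx hxx
    rw [mul_assoc κ] at hv3 h2
    exact ⟨⟨v, hv1, hv2, hv3⟩, h2⟩
  refine ⟨key2, fun y hy hy0 => ?_⟩
  obtain ⟨x, hx⟩ : ∃ x, x = y / (1 + κ) := ⟨_, rfl⟩
  have hκ' : 0 < 1 + κ := by linarith
  have hyx : y = (1 + κ) * x := by
    rw [hx]
    field_simp
  rw [hyx] at hy hy0 ⊢
  have hx1' : x1 ≤ x := le_of_mul_le_mul_left hy hκ'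
  have hx0' : x ≤ x0 := le_of_mul_le_mul_left hy0 hκ'
  have hxp : 0 < x := hx1.trans_le hx1'
  have h1 := (key2 x hx1' hx0').2
  have h2 := P1_le_tan (n := n) (β := β) (a := x / 2) (b := (1 + κ) * x) (by positivity)
    (by nlinarith)
  have hW0 : 0 ≤ AP.Wn n β ((1 + κ) * x) := by
    have h3 := P1_mono (n := n) (β := β) (b := x / 2) (a := (1 + κ) * x) (by positivity)
      (by nlinarith)
    have h4 : 0 < ((1 + κ) * x - x / 2) / 2 := by nlinarith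
    by_contra hcon
    push Not at hcon
    have := mul_neg_of_pos_of_neg h4 hcon
    linarith
  have h3 : ((1 + κ) * x - x / 2) / 2 * AP.Wn n β ((1 + κ) * x) ≤
      3 / 4 * x * AP.Wn n β ((1 + κ) * x) := by
    refine mul_le_mul_of_nonneg_right ?_ hW0
    nlinarith
  have h4 : a * (κ * (n * (x / 2) ^ 5)) ≤ 3 / 4 * x * AP.Wn n β ((1 + κ) * x) :=
    h1.trans (h2.trans h3)
  have h5 : x * (a * κ / 24 * (n * x ^ 4)) ≤ x * AP.Wn n β ((1 + κ) * x) := by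
    have e : a * (κ * (n * (x / 2) ^ 5)) = 3 / 4 * (x * (a * κ / 24 * (n * x ^ 4))) := by ring
    rw [e] at h4
    linarith
  have h6 := le_of_mul_le_mul_left h5 hxp
  refine le_trans ?_ h6
  have h7 : ((1 + κ) * x) ^ 4 ≤ 16 * x ^ 4 := by
    have h8 : (1 + κ) * x ≤ 2 * x := by nlinarith
    have h9 := pow_le_pow_left₀ (by positivity : 0 ≤ (1 + κ) * x) h8 4
    refine h9.trans (le_of_eq ?_)
    ring
  have h8 : 0 ≤ a * κ / 384 := by positivity
  calc a * κ / 384 * (n * ((1 + κ) * x) ^ 4) ≤ a * κ / 384 * (n * (16 * x ^ 4)) := by gcongr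
    _ = a * κ / 24 * (n * x ^ 4) := by ring

end Vale.Agent.P146.H645x
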