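import Vale.Agent.P146.H645x.CstE

/-!
# P146: the choice of the numbers of the bundles, with the inputs of the per-share theorem
(helper645)
-/

namespace Vale.Agent.P146.H645x

open Vale.Agent.P146.H877x

/-- the inputs of the quadratic inequalities at one scale -/
lemma constsP_fin {C4 CC B0 β δ' e ε δ ε1 u n T κ P : ℝ} (hC4 : 1 ≤ C4) (hCC : 0 ≤ CC)
    (hB0 : 0 ≤ B0) (hδ' : 0 < δ') (he : 0 < e) (hδ : 0 ≤ δ) (hδ1 : δ ≤ 1)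
    (hδε : δ ≤ ε) (hε1 : ε ≤ δ') (hε2 : ε ≤ δ' / 8)
    (hε3 : CC * C4 ^ 2 * ε ≤ δ' / 8) (hε4 : 24 * ε ≤ δ' ^ 2)
    (hε5 : 200 * ε ≤ δ' * e) (u0 : 0 < u) (hu1 : u ≤ 1) (hn : 0 < n)
    (hn2 : 1 ≤ ε1 * (n * u ^ 2))
    (h1 : CC * C4 ^ 4 * u ≤ δ' / 8) (h2 : 12 * C4 ^ 2 * (β ^ 2 * e) * u ≤ δ')
    (h3 : 200 * β ^ 2 * C4 ^ 2 * u ≤ 1) (h4 : (3 + B0 * ε1) * u ≤ 1)
    (hT : T ≤ ε * u ^ 3) (hP : P ≤ ε1 * u ^ 3) (h5 : (CC + 16) * ε1 ≤ δ' / 2)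
    (h6 : 48 * ε1 ≤ δ') :
    T ≤ δ' * u ^ 3 ∧
    (κ ≤ P → CC * (δ * u * (C4 * u) ^ 2 + (C4 * u) ^ 4 + κ) + 16 * κ + 2 * T ≤ δ' * u ^ 3) ∧
    (δ * u) ^ 2 ≤ δ' * u ^ 2 ∧
    6 * ((C4 * u) ^ 2 * (β ^ 2 * (e * u ^ 2)) + 2 * T / (δ' * u)) ≤ δ' * u ^ 2 ∧
    (κ ≤ P → 48 * κ ≤ δ' * u ^ 3) ∧
    48 * ((C4 * u) ^ 2 * (β ^ 2 * (e * u ^ 2)) + 2 * T / (δ' * u)) < e * u ^ 2 ∧
    (κ ≤ 3 * u ^ 3 → κ + B0 / n ≤ C4 * u) := by
  have u2 : 0 < u ^ 2 := by positivity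
  have u3 : 0 < u ^ 3 := by positivity
  have hC0 : 0 < C4 := by linarith
  have hTu : 2 * T / (δ' * u) ≤ 2 * ε / δ' * u ^ 2 := by
    rw [div_le_iff₀ (by positivity)]
    have e : 2 * ε / δ' * u ^ 2 * (δ' * u) = 2 * (ε * u ^ 3) := by
      field_simp
    rw [e]
    linarith
  have hq : (C4 * u) ^ 2 * (β ^ 2 * (e * u ^ 2)) ≤ C4 ^ 2 * (β ^ 2 * e) * u * u ^ 2 := by
    have e : (C4 * u) ^ 2 * (β ^ 2 * (e * u ^ 2)) = C4 ^ 2 * (β ^ 2 * e) * u * u ^ 2 * u := by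
      ring
    rw [e]
    exact mul_le_of_le_one_right (by positivity) hu1
  refine ⟨?_, fun hκ => ?_, ?_, ?_, fun hκ => ?_, ?_, fun hκ => ?_⟩
  · exact hT.trans (mul_le_mul_of_nonneg_right hε1 u3.le)
  · have a1 : CC * (δ * u * (C4 * u) ^ 2) ≤ δ' / 8 * u ^ 3 := by
      have e : CC * (δ * u * (C4 * u) ^ 2) = CC * C4 ^ 2 * δ * u ^ 3 := by ring
      rw [e]
      refine mul_le_mul_of_nonneg_right (le_trans ?_ hε3) u3.le
      exact mul_le_mul_of_nonneg_left hδε (by positivity)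
    have a2 : CC * (C4 * u) ^ 4 ≤ δ' / 8 * u ^ 3 := by
      have e : CC * (C4 * u) ^ 4 = CC * C4 ^ 4 * u * u ^ 3 := by ring
      rw [e]
      exact mul_le_mul_of_nonneg_right h1 u3.le
    have a3 : T ≤ δ' / 8 * u ^ 3 := hT.trans (mul_le_mul_of_nonneg_right hε2 u3.le)
    have a4 : (CC + 16) * κ ≤ δ' / 2 * u ^ 3 := by
      calc (CC + 16) * κ ≤ (CC + 16) * (ε1 * u ^ 3) :=
            mul_le_mul_of_nonneg_left (hκ.trans hP) (by linarith)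
        _ = (CC + 16) * ε1 * u ^ 3 := by ring
        _ ≤ _ := mul_le_mul_of_nonneg_right h5 u3.le
    have e : CC * (δ * u * (C4 * u) ^ 2 + (C4 * u) ^ 4 + κ) + 16 * κ + 2 * T =
        CC * (δ * u * (C4 * u) ^ 2) + CC * (C4 * u) ^ 4 + (CC + 16) * κ + 2 * T := by ring
    rw [e]
    linarith
  · rw [mul_pow]
    refine mul_le_mul_of_nonneg_right ?_ u2.le
    nlinarith
  · have a1 : C4 ^ 2 * (β ^ 2 * e) * u * u ^ 2 ≤ δ' / 12 * u ^ 2 :=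
      mul_le_mul_of_nonneg_right (by linarith) u2.le
    have a2 : 2 * ε / δ' ≤ δ' / 12 := by
      rw [div_le_iff₀ hδ']
      nlinarith
    have a3 : 2 * ε / δ' * u ^ 2 ≤ δ' / 12 * u ^ 2 := mul_le_mul_of_nonneg_right a2 u2.le
    linarith
  · calc 48 * κ ≤ 48 * (ε1 * u ^ 3) := mul_le_mul_of_nonneg_left (hκ.trans hP) (by norm_num)
      _ = 48 * ε1 * u ^ 3 := by ring
      _ ≤ _ := mul_le_mul_of_nonneg_right h6 u3.le
  · have a1 : C4 ^ 2 * (β ^ 2 * e) * u * u ^ 2 ≤ e / 200 * u ^ 2 := by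
      refine mul_le_mul_of_nonneg_right ?_ u2.le
      have := mul_le_mul_of_nonneg_left h3 he.le
      nlinarith
    have a2 : 2 * ε / δ' ≤ 2 * (e / 200) := by
      rw [div_le_iff₀ hδ']
      linarith
    have a3 : 2 * ε / δ' * u ^ 2 ≤ 2 * (e / 200) * u ^ 2 :=
      mul_le_mul_of_nonneg_right a2 u2.le
    have a5 : 0 < e / 200 * u ^ 2 := by positivity
    linarith
  · have a1 : 1 / n ≤ ε1 * u ^ 2 := by
      rw [div_le_iff₀ hn]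
      linarith
    have a2 : B0 / n ≤ B0 * ε1 * u ^ 2 := by
      have : B0 / n = B0 * (1 / n) := by ring
      rw [this, mul_assoc]
      exact mul_le_mul_of_nonneg_left a1 hB0
    have a3 : u ^ 3 ≤ u ^ 2 := by
      have : u ^ 3 = u ^ 2 * u := by ring
      rw [this]
      exact mul_le_of_le_one_right u2.le hu1
    have a4 : κ + B0 / n ≤ (3 + B0 * ε1) * u * u := by nlinarith
    have a5 : (3 + B0 * ε1) * u * u ≤ 1 * u := mul_le_mul_of_nonneg_right h4 u0.le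
    have a6 : 1 * u ≤ C4 * u := mul_le_mul_of_nonneg_right hC4 u0.le
    linarith

/-- **The choice of the numbers of the bundles**, with the inputs `E1, …, E5` of `perU'`
(`CC = KV ^ 2 * (60 * B0 ^ 3)`, `ε := δ'`); `10 N R` bounds the sum of the variances. -/
theorem constsP {C4 CE CC B0 β y v δ' e : ℝ} (hC4 : 1 ≤ C4) (hCE : 0 ≤ CE) (hCC : 0 ≤ CC)
    (hB0 : 0 ≤ B0) (hy : 0 < y) (hv : 0 < v) (hδ' : 0 < δ') (he : 0 < e) :
    ∃ t δ q0 : ℝ, (0 < t ∧ t ≤ 1) ∧ (0 < δ ∧ δ ≤ 1) ∧ 0 < q0 ∧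
      ∀ q : ℝ, 0 < q → q ≤ q0 → ∀ ε1 : ℝ, 0 < ε1 → ∃ N : ℕ, 3 ≤ N ∧ ∃ γ : ℝ, 0 < γ ∧
        ∃ u0 : ℝ, 0 < u0 ∧ ∀ (n : ℕ) (u B : ℝ), 0 < n → 0 < u → u ≤ u0 → 0 ≤ B →
          (B + 1) ^ 8 ≤ γ * (n * u ^ 6) →
          ∃ R : ℝ, 0 < R ∧ 10 * N * R * (B + 1) ≤ ε1 * u ^ 3 ∧
            1 ≤ ε1 * (n * u ^ 2) ∧ 1 ≤ ε1 * (n * u ^ 6) ∧ u ≤ 1 ∧ u ≤ ε1 ∧ C4 * u ≤ 1 ∧
            4 * (C4 * u) ^ 2 * (B0 + 3 * u ^ 3) ≤ 1 / 4 ∧
            ∀ E : ℝ, 0 ≤ E → E ≤ CE * (B + 1) * (n * u ^ 5) →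
              64 * E / (y * u * n ^ 2 * R ^ 2) ≤ ε1 * u ^ 4 ∧
              5 * (C4 * u) ^ 2 / (N - 2) + 20 * (64 * E / (y * u * n ^ 2 * R ^ 2)) /
                (v * u * q / (2 * N + 2)) ^ 2 ≤ (δ * u) ^ 2 ∧
              ∀ κ T : ℝ, κ ≤ 3 * u ^ 3 → T = eT n (C4 * u) (δ * u) κ B0
                (64 * E / (y * u * n ^ 2 * R ^ 2)) (v * u * q / (2 * N + 2)) R t (v * u * q) →
                T ≤ δ' * u ^ 3 ∧
                (κ ≤ 10 * N * R → CC * (δ * u * (C4 * u) ^ 2 + (C4 * u) ^ 4 + κ) + 16 * κ +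
                  2 * T ≤ δ' * u ^ 3) ∧
                (δ * u) ^ 2 ≤ δ' * u ^ 2 ∧
                6 * ((C4 * u) ^ 2 * (β ^ 2 * (e * u ^ 2)) + 2 * T / (δ' * u)) ≤ δ' * u ^ 2 ∧
                (κ ≤ 10 * N * R → 48 * κ ≤ δ' * u ^ 3) ∧
                48 * ((C4 * u) ^ 2 * (β ^ 2 * (e * u ^ 2)) + 2 * T / (δ' * u)) < e * u ^ 2 ∧
                κ + B0 / n ≤ C4 * u := by
  obtain ⟨ε, hε⟩ : ∃ ε, ε = min (min δ' (δ' / 8)) (min (δ' / 8 / (CC * C4 ^ 2 + 1))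
    (min (δ' ^ 2 / 24) (δ' * e / 200))) := ⟨_, rfl⟩
  have hε0 : 0 < ε := by rw [hε]; positivity
  have e1 : ε ≤ δ' := by rw [hε]; exact (min_le_left _ _).trans (min_le_left _ _)
  have e2 : ε ≤ δ' / 8 := by rw [hε]; exact (min_le_left _ _).trans (min_le_right _ _)
  have e3 : CC * C4 ^ 2 * ε ≤ δ' / 8 := mul_le_of_le_div_add (by positivity) hε0.le (by
    rw [hε]; exact (min_le_right _ _).trans (min_le_left _ _))
  have e4 : 24 * ε ≤ δ' ^ 2 := by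
    have : ε ≤ δ' ^ 2 / 24 := by
      rw [hε]
      exact (min_le_right _ _).trans ((min_le_right _ _).trans (min_le_left _ _))
    linarith
  have e5 : 200 * ε ≤ δ' * e := by
    have : ε ≤ δ' * e / 200 := by
      rw [hε]
      exact (min_le_right _ _).trans ((min_le_right _ _).trans (min_le_right _ _))
    linarith
  have hC40 : 0 ≤ C4 := by linarith
  obtain ⟨t, δ, q0, h1, ⟨d1, d2, d3⟩, h3, h4⟩ := constsT (C4 := C4) (CE := CE) (B0 := B0)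
    (y := y) (v := v) hC40 hCE hB0 hy hv hε0
  refine ⟨t, δ, q0, h1, ⟨d1, d2⟩, h3, fun q hq hq' ε1 hε1 => ?_⟩
  obtain ⟨ε2, hε2⟩ : ∃ ε2, ε2 = min (min 1 ε1) (min (δ' / 2 / (CC + 16)) (δ' / 48)) := ⟨_, rfl⟩
  have hε20 : 0 < ε2 := by rw [hε2]; positivity
  have f0 : ε2 ≤ 1 := by rw [hε2]; exact (min_le_left _ _).trans (min_le_left _ _)
  have f1 : ε2 ≤ ε1 := by rw [hε2]; exact (min_le_left _ _).trans (min_le_right _ _)
  have f2 : (CC + 16) * ε2 ≤ δ' / 2 := by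
    have : ε2 ≤ δ' / 2 / (CC + 16) := by
      rw [hε2]; exact (min_le_right _ _).trans (min_le_left _ _)
    rw [le_div_iff₀ (by positivity)] at this
    linarith
  have f3 : 48 * ε2 ≤ δ' := by
    have : ε2 ≤ δ' / 48 := by
      rw [hε2]; exact (min_le_right _ _).trans (min_le_right _ _)
    linarith
  obtain ⟨N, hN, γ, hγ, u0, hu0, h5⟩ := h4 q hq hq' ε2 hε20
  obtain ⟨w0, hw0⟩ : ∃ w0, w0 = min (min u0 (δ' / 8 / (CC * C4 ^ 4 + 1)))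
    (min (δ' / (12 * C4 ^ 2 * (β ^ 2 * e) + 1)) (min (1 / (200 * β ^ 2 * C4 ^ 2 + 1))
      (1 / ((3 + B0 * ε2) + 1)))) := ⟨_, rfl⟩
  have hw00 : 0 < w0 := by rw [hw0]; positivity
  refine ⟨N, hN, γ, hγ, w0, hw00, fun n u B hn hu hu' hB hB' => ?_⟩
  have g0 : u ≤ u0 := hu'.trans (by rw [hw0]; exact (min_le_left _ _).trans (min_le_left _ _))
  have g1 : CC * C4 ^ 4 * u ≤ δ' / 8 := mul_le_of_le_div_add (by positivity) hu.le
    (hu'.trans (by rw [hw0]; exact (min_le_left _ _).trans (min_le_right _ _)))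
  have g2 : 12 * C4 ^ 2 * (β ^ 2 * e) * u ≤ δ' := mul_le_of_le_div_add (by positivity) hu.le
    (hu'.trans (by rw [hw0]; exact (min_le_right _ _).trans (min_le_left _ _)))
  have g3 : 200 * β ^ 2 * C4 ^ 2 * u ≤ 1 := mul_le_of_le_div_add (by positivity) hu.le
    (hu'.trans (by
      rw [hw0]; exact (min_le_right _ _).trans ((min_le_right _ _).trans (min_le_left _ _))))
  have g4 : (3 + B0 * ε2) * u ≤ 1 := mul_le_of_le_div_add (by positivity) hu.le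
    (hu'.trans (by
      rw [hw0]; exact (min_le_right _ _).trans ((min_le_right _ _).trans (min_le_right _ _))))
  obtain ⟨R, hR, r1, r2, r3, r4, r5, r6, r7, r8⟩ := h5 n u B hn hu g0 hB hB'
  have hnR : (0 : ℝ) < n := Nat.cast_pos.2 hn
  have hu3 : 0 < u ^ 3 := by positivity
  have hN0 : (0 : ℝ) ≤ N := Nat.cast_nonneg _
  have hP : 10 * N * R ≤ ε2 * u ^ 3 := by
    have h6 : 0 ≤ 10 * N * R * B := by positivity
    linarith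
  have hle : ∀ x : ℝ, 0 ≤ x → ε2 * x ≤ ε1 * x := fun x hx => mul_le_mul_of_nonneg_right f1 hx
  have l1 := hle (u ^ 3) hu3.le
  have l2 := hle (n * u ^ 2) (by positivity)
  have l3 := hle (n * u ^ 6) (by positivity)
  have l4 := hle (u ^ 4) (by positivity)
  refine ⟨R, hR, by linarith, by linarith, by linarith, r4, r5.trans f1, r6, r7,
    fun E hE0 hE => ?_⟩
  obtain ⟨s1, s2, s3⟩ := r8 E hE0 hE
  refine ⟨by linarith, s2, fun κ T k1 hT => ?_⟩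
  have hT' : T ≤ ε * u ^ 3 := hT.trans_le (s3 κ k1)
  obtain ⟨q1, q2, q3, q4, q5, q6, q7⟩ := constsP_fin (P := 10 * N * R) (β := β) (κ := κ) hC4
    hCC hB0 hδ' he d1.le d2 d3 e1 e2 e3 e4 e5 hu r4 hnR r2 g1 g2 g3 g4 hT' hP f2 f3
  exact ⟨q1, q2, q3, q4, q5, q6, q7 k1⟩

end Vale.Agent.P146.H645x
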